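import Vale.Agent.P073.H267.K3St2

/-!
# P073, H608: **[TOP-S]**: the step of the levels is small against the square faces of the plates

`exists_dP`: bound of the spacing of the levels, chosen after the map `h1` of ROUND T.
-/

open Set Metric Topology Filter

set_option linter.unusedSectionVars false

namespace Vale.Agent.P073.H608

open _root_.P073 _root_.P073.Net _root_.P073.PA691 _root_.P073.H236
open _root_.P073.H936 _root_.P073.H936.K3
open _root_.P073.H345 (PK tg PLev)
open _root_.P073.H880.RP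
open _root_.P073.H579 (AkP)
open Vale.Agent.P073.St (V)
open Vale.Agent.P073.H471 Vale.Agent.P073.H267
open Vale.Agent.P073.H73 (Mesh sqr)
open Vale.Agent.P073.H193 (Edges edges)
open Vale.Agent.P073.H926
open Vale.Agent.P073.H238.K3
open Vale.Agent.P073.H267.K3
open Vale.Agent.P073.H687

/-- the diameter of a square -/
theorem diam_sqr (a : V) (l : Fin 3) {σ : ℝ} (hσ : 0 ≤ σ) : diam (sqr a l σ) = 2 * σ := by
  have hb : Bornology.IsBounded (sqr a l σ) := by
    refine (isBounded_closedBall (x := a) (r := σ)).subset fun x hx => ?_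
    rw [mem_closedBall, dist_eq_norm, pi_norm_le_iff_of_nonneg hσ]
    exact fun j => by rw [Pi.sub_apply, Real.norm_eq_abs]; exact hx.2 j
  apply le_antisymm
  · refine diam_le_of_forall_dist_le (by linarith) fun x hx y hy => ?_
    rw [dist_eq_norm, pi_norm_le_iff_of_nonneg (by linarith)]
    intro j
    have h1 := abs_le.1 (hx.2 j)
    have h2 := abs_le.1 (hy.2 j)
    rw [Pi.sub_apply, Real.norm_eq_abs, abs_le]
    constructor <;> linarith
  · obtain ⟨i, hi⟩ : ∃ i : Fin 3, i ≠ l := by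
      rcases eq_or_ne l 0 with h | h
      · exact ⟨1, by rw [h]; decide⟩
      · exact ⟨0, h.symm⟩
    have hx : Function.update a i (a i + σ) ∈ sqr a l σ := by
      refine ⟨Function.update_of_ne hi.symm _ _, fun j => ?_⟩
      by_cases hj : j = i
      · rw [hj, Function.update_self, add_sub_cancel_left, abs_of_nonneg hσ]
      · rw [Function.update_of_ne hj, sub_self, abs_zero]; exact hσ
    have hy : Function.update a i (a i - σ) ∈ sqr a l σ := by
      refine ⟨Function.update_of_ne hi.symm _ _, fun j => ?_⟩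
      by_cases hj : j = i
      · rw [hj, Function.update_self, sub_sub_cancel_left, abs_neg, abs_of_nonneg hσ]
      · rw [Function.update_of_ne hj, sub_self, abs_zero]; exact hσ
    have h1 := dist_le_diam_of_mem hb hx hy
    have h2 := dist_le_pi_dist (Function.update a i (a i + σ)) (Function.update a i (a i - σ)) i
    rw [Function.update_self, Function.update_self, Real.dist_eq,
      show a i + σ - (a i - σ) = 2 * σ by ring, abs_of_nonneg (by linarith)] at h2
    linarith

/-- a positive lower bound of finitely many positive numbers -/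
theorem exists_pos_le {α : Type*} {S : Set α} (hS : S.Finite) {f : α → ℝ} (hf : ∀ a, 0 < f a) :
    ∃ d : ℝ, 0 < d ∧ ∀ a ∈ S, d ≤ f a := by
  induction S, hS using Set.Finite.induction_on with
  | empty => exact ⟨1, one_pos, fun a ha => absurd ha (notMem_empty a)⟩
  | @insert a S _ _ ih =>
    obtain ⟨d, hd, H⟩ := ih
    refine ⟨min d (f a), lt_min hd (hf a), fun b hb => ?_⟩
    rcases mem_insert_iff.1 hb with rfl | hb
    · exact min_le_right _ _
    · exact (min_le_left _ _).trans (H b hb)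

variable {c₀ n δ : ℝ} {j : ℕ} {Ω Λ : Set V} {v w : V} {ρ : V → ℝ} {M : Mesh Ω} {h : ConHomeo Ω Λ}
  {J₀ J : Set (ℕ × (Fin 3 → ℤ))} {P Z : Set M.ι} {K : BoxCx Λ w}
  {D : KIn3 c₀ n j δ v w ρ M h J₀ J P Z} {C : Cells ρ w K} {C₀ μT : ℝ}

/-- only finitely many faces are peeled at a plate -/
theorem finite_pks (X : S1 D C C₀ μT) (s : K.S) :
    {k | (D.dat C).PkS (D.G C) X.h1 s k}.Finite := by
  have hsub : (D.G C).PB 1 s ⊆ Λ := Geo.PB_sub (by norm_num) s
  have hcpt : IsCompact (X.h1.invFun '' (D.G C).PB 1 s) :=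
    isCompact_Icc.image_of_continuousOn (X.h1.cont_inv.mono hsub)
  have hΩ : X.h1.invFun '' (D.G C).PB 1 s ⊆ Ω := by
    rintro _ ⟨y, hy, rfl⟩
    exact X.h1.mapsTo_inv (hsub hy)
  refine (M.ffin _ hΩ hcpt).subset ?_
  rintro k ⟨-, -, x, hx, hxs⟩
  refine ⟨x, hx, X.h1.toFun x, hxs, X.h1.left_inv (Vale.Agent.P073.H193.mesh_sub M k hx)⟩

/-- **[TOP-S]** (field `hsm` of `sharp3`): a bound of the spacing, for every constant `ρ₀` -/
theorem exists_dP (X : S1 D C C₀ μT) {ρ₀ : ℝ} (hρ₀ : 0 < ρ₀) :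
    ∃ d : K.S → ℝ, (∀ s, 0 < d s) ∧ ∀ Y₂ : S2 X, (∀ s, Y₂.dP s ≤ d s) →
      ∀ s k, (D.dat C).PkS (D.G C) X.h1 s k → ∀ (a : V) (σ : ℝ), 0 < σ →
        M.F k = sqr a (K.nrm s) σ → ∀ β, Y₂.Lw.om s β ≤ ρ₀ / 4 * (2 * σ) := by
  classical
  set f : M.κ → ℝ := fun k => if 0 < diam (M.F k) then ρ₀ / 8 * diam (M.F k) else 1 with hf
  have hf0 : ∀ k, 0 < f k := fun k => by
    simp only [hf]
    split_ifs with hk
    · positivity
    · exact one_pos
  choose d hd H using fun s : K.S => exists_pos_le (finite_pks X s) hf0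
  refine ⟨d, hd, fun Y₂ hY s k hk a σ hσ hF β => ?_⟩
  have h1 := H s k hk
  have h2 : diam (M.F k) = 2 * σ := by rw [hF]; exact diam_sqr a _ hσ.le
  have h3 : 0 < diam (M.F k) := by rw [h2]; linarith
  simp only [hf, if_pos h3] at h1
  have h4 := Y₂.Lw.om_le_two s β
  have h5 := hY s
  rw [h2] at h1
  linarith

/-- the same with 345's levels -/
theorem exists_dP' (X : S1 D C C₀ μT) {ρ₀ : ℝ} (hρ₀ : 0 < ρ₀) :
    ∃ d : K.S → ℝ, (∀ s, 0 < d s) ∧ ∀ Y₂ : S2 X, (∀ s, Y₂.dP s ≤ d s) →
      ∀ s k, (D.dat C).PkS (D.G C) X.h1 s k → ∀ (a : V) (σ : ℝ), 0 < σ →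
        M.F k = sqr a (K.nrm s) σ → ∀ β, Y₂.L.om s β ≤ ρ₀ / 4 * (2 * σ) :=
  exists_dP X hρ₀

end Vale.Agent.P073.H608
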