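import Vale.Agent.P073.H73.PreSpec
import Vale.Agent.P073.H73.PostD
import Vale.Agent.P073.H73.K2S
import Vale.Agent.P073.H471.K2AofC
import Vale.Agent.P073.H399.SGB4
import Vale.Agent.P073.H16.UnifE
import Vale.Agent.P073.H407.CellE
import Vale.Agent.P073.H333.NetIn2
import Vale.Agent.P073.PA285.Top
import Vale.Agent.P073.H582.ConC5
import Vale.Agent.P073.H582.ConC6
import Vale.Agent.P073.H582.ConC7
import Vale.Agent.P073.H761.C1
import Vale.Agent.P073.H761.C4W
import Vale.Agent.P073.H761.UncW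
import Vale.Agent.P073.H761.C2T
import Vale.Agent.P073.H761.UncAll
import Vale.Agent.P073.H732.C3
import Vale.Agent.P073.H253.Rank1
import Vale.Agent.P073.H83.RPA
import Vale.Agent.P073.H235.R2Spec
import Vale.Agent.P073.H190.ConB2
import Vale.Agent.P073.H190.ConB3

/-!
# P073: the top of the proof

The full theorem for the exponent `p` from the propositions which are still open.
-/

namespace Vale.Agent.P073.H608

open Vale.Agent.P073 Vale.Agent.P073.St Vale.Agent.P073.H235 Vale.Agent.P073.LOC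
open Set

/-- the full theorem -/
def Full (p : ℝ) : Prop :=
  ∀ (Ω Λ : Set V) (f : V → V) (F : V → Mat), St.IsBoundedDomain Ω → St.IsBoundedDomain Λ →
    St.IsHomeo Ω Λ f → St.IsSobolev p Ω f F → St.DiffeoApproximable p Ω Λ f F

/-! ### Landed pieces -/

/-- the collar, the cleaning of the cells and the net -/
theorem specCellE : H333.SpecCellE :=
  _root_.P073.Cell.specCellE_of (_root_.P073.H16.specUE fun X hX hXS ε hε => _root_.P073.H399.small_gb4 X hX hXS ε hε)

theorem netIn2 : H333.NetIn2 := H333.netIn2_of PA285.netOutN specCellE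

/-! ### Rank two -/

theorem locThm_of_flat {p : ℝ} (hp : 1 ≤ p) (h : SpecFlat p P2) : LocThm p P2 := by
  refine H761.specUncollapse_all p P2 hp ?_ h
  simp [P2, SQ.ev]

/-- rank two, `1 ≤ p < 3` -/
theorem rk2_lt {p : ℝ} (hp : 1 ≤ p) (hp3 : p < 3) (h : SpecConFlat p P2) :
    ∀ L, Rk2 L → RED.Loc p L :=
  (H582.specC8 p hp).2 (locThm_of_flat hp (H582.specC5 p P2 hp hp3 H761.specC1 H732.specC3 h))

/-- rank two, every exponent -/
theorem rk2_all {p : ℝ} (hp : 1 ≤ p) (h : H239.SpecConFlatB p P2) :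
    ∀ L, Rk2 L → RED.Loc p L :=
  (H582.specC8 p hp).2 (locThm_of_flat hp (H190.specFlat_of_conFlatB hp H732.specC3 h))

/-! ### Rank one -/

/-- rank one, `1 ≤ p < 3` -/
theorem rk1_lt {p : ℝ} (hp : 1 ≤ p) (hp3 : p < 3) (h : H253.SpecConBeamT p P1) :
    ∀ L, Rk1 L → RED.Loc p L := by
  refine (H582.specC8 p hp).1 (H253.locThm_of_beamW hp ?_ ?_
    (H253.specBeamW_of_conBeamT H732.specC3 H83.specRPA hp hp3 h)) <;> simp [P1, SQ.ev]

/-- rank one, every exponent -/
theorem rk1_all {p : ℝ} (hp : 1 ≤ p) (h : H190.SpecConBeamTB p P1) :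
    ∀ L, Rk1 L → RED.Loc p L := by
  refine (H582.specC8 p hp).1 (H253.locThm_of_beamW hp ?_ ?_
    (H253.specBeamW_of_conBeamTB H732.specC3 H83.specRPA hp h)) <;> simp [P1, SQ.ev]

/-! ### The theorem -/

/-- the open propositions for `2 < p < 3` -/
structure OpenLt (p : ℝ) : Prop where
  pre : H73.SpecPre p
  k2c : H73.K2C p
  preFlat : SpecPreFlat p
  postFlat : SpecPostFlat p
  conBeam : H253.SpecConBeamT p P1

theorem full_lt {p : ℝ} (hp : 1 ≤ p) (hp3 : p < 3) (H : OpenLt p) : Full p := by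
  have hK : H73.K2AS p := H471.k2as_of_k2c (by linarith) H.k2c
  intro _ _ _ _ hΩ hΛ hf hF
  exact final3_of hp hp3 (H73.fdFace_of_pre hp (H73.k2a_of_k2as hK) H.pre)
      (rk1_lt hp hp3 H.conBeam)
      (rk2_lt hp hp3 (specConFlat_of hK H.preFlat H.postFlat)) hΩ hΛ hf hF

/-- the open propositions for `3 ≤ p` -/
structure OpenGe (p : ℝ) : Prop where
  m1 : M1P p
  conFlat : H239.SpecConFlatB p P2
  conBeam : H190.SpecConBeamTB p P1

theorem full_ge {p : ℝ} (hp : 1 ≤ p) (H : OpenGe p) : Full p :=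
  fun _ _ _ _ hΩ hΛ hf hF => red_final hp H.m1 (rk1_all hp H.conBeam)
    (rk2_all hp H.conFlat) hΩ hΛ hf hF

end Vale.Agent.P073.H608
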