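import Vale.Agent.P073.H608.ColPL

/-!
# P073 [COL-PL]: consequences

`C.act x` = the active cells at `x`, `C.X` = the points of `W` with at least two active cells.
-/

open Set Metric Topology Filter MeasureTheory

namespace P073.H608

variable {E : Type*} [NormedAddCommGroup E] [InnerProductSpace ℝ E]

open scoped RealInnerProductSpace

namespace PLCollapse

variable {W V V0 : Set E} {s : ℝ} {T : E → E} {tol : E → ℝ}

/-- the active cells at `x` -/
def act (C : PLCollapse W V V0 s T tol) (x : E) : Set E :=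
  {z | z ∈ C.Z ∧ C.psi x = ⟪C.w z, x⟫ - C.c z}

/-- the skeleton: at least two active cells -/
def X (C : PLCollapse W V V0 s T tol) : Set E :=
  {x | x ∈ W ∧ ∃ z ∈ C.act x, ∃ z' ∈ C.act x, z ≠ z'}

variable (C : PLCollapse W V V0 s T tol)

theorem mem_act {x z : E} : z ∈ C.act x ↔ z ∈ C.Z ∧ C.psi x = ⟪C.w z, x⟫ - C.c z := Iff.rfl

theorem X_subset : C.X ⊆ W := fun _ hx => hx.1

/-- **(C1)** -/
theorem firm (y y' : E) : ‖C.T2 y - C.T2 y'‖ ^ 2 ≤ s * ⟪y - y', C.T2 y - C.T2 y'⟫ :=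
  res_firm (C.res y) (C.res y')

theorem lip (hs : 0 ≤ s) (y y' : E) : ‖C.T2 y - C.T2 y'‖ ≤ s * ‖y - y'‖ :=
  res_lipschitz hs C.res y y'

theorem continuous (hs : 0 ≤ s) : Continuous C.T2 := res_continuous hs C.res

theorem mono (hs : 0 < s) (y y' : E) : 0 ≤ ⟪y - y', C.T2 y - C.T2 y'⟫ := res_mono hs C.res y y'

/-- a finite set of active cells, with all the local information -/
theorem exists_loc {x : E} (hx : x ∈ W) : ∃ J : Finset E, (J : Set E) = C.act x ∧ J.Nonempty ∧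
    LocMax C.psi C.w C.c J x ∧ ∀ᶠ x' in 𝓝 x, C.act x' ⊆ J := by
  obtain ⟨J, h1, h2, h3⟩ := C.loc x hx
  refine ⟨J, ?_, ?_, h2, ?_⟩
  · ext z; exact h1 z
  · obtain ⟨i, hi, _⟩ := (h2.self_of_nhds).2
    exact ⟨i, hi⟩
  · filter_upwards [h3] with x' h z hz
    exact h z hz.1 hz.2

theorem act_nonempty {x : E} (hx : x ∈ W) : (C.act x).Nonempty := by
  obtain ⟨J, h1, h2, _⟩ := C.exists_loc hx
  rw [← h1]; exact h2

theorem act_finite {x : E} (hx : x ∈ W) : (C.act x).Finite := by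
  obtain ⟨J, h1, _⟩ := C.exists_loc hx
  rw [← h1]; exact J.finite_toSet

/-- the fibre of `T2` over `x` in terms of subgradients -/
theorem T2_eq_iff (hs : 0 ≤ s) {x y : E} : C.T2 y = x ↔ IsSub C.psi x (s • y - x) := by
  constructor
  · rintro rfl; exact C.res y
  · exact res_eq hs C.res

/-- **(C5)** -/
theorem mem_hull [FiniteDimensional ℝ E] {y : E} (hy : y ∈ W) :
    s • y - C.T2 y ∈ convexHull ℝ (C.w '' C.act (C.T2 y)) := by
  obtain ⟨J, h1, _, h3, _⟩ := C.exists_loc (C.maps hy)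
  rw [← h1]
  refine h3.sub_mem_convexHull (fun i hi => ?_) (C.res y)
  have : i ∈ C.act (C.T2 y) := by rw [← h1]; exact hi
  exact this.2

theorem T2_of_mem_hull (hs : 0 ≤ s) {x y : E}
    (h : s • y - x ∈ convexHull ℝ (C.w '' C.act x)) : C.T2 y = x :=
  res_eq hs C.res (isSub_of_mem_convexHull (c := C.c) (J := C.act x)
    (fun i hi => C.le i hi.1) (fun _ hi => hi.2) h)

/-- the map on the closed cell of `z` -/
theorem T2_of_act (hs : 0 ≤ s) {x y z : E} (hz : z ∈ C.act x) (h : s • y = x + C.w z) :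
    C.T2 y = x := by
  apply C.T2_of_mem_hull hs
  rw [h, add_sub_cancel_left]
  exact subset_convexHull ℝ _ ⟨z, hz, rfl⟩

theorem T2_surj (hs : 0 < s) (x : E) : ∃ y, C.T2 y = x := by
  by_cases hx : x ∈ W
  · obtain ⟨z, hz⟩ := C.act_nonempty hx
    refine ⟨s⁻¹ • (x + C.w z), C.T2_of_act hs.le hz ?_⟩
    rw [smul_smul, mul_inv_cancel₀ hs.ne', one_smul]
  · exact ⟨x, C.id_off x hx⟩

theorem mem_iff (y : E) : C.T2 y ∈ W ↔ y ∈ W := by
  refine ⟨fun h => ?_, fun h => C.maps h⟩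
  by_contra hn
  rw [C.id_off y hn] at h
  exact hn h

theorem T2_image (hs : 0 < s) : C.T2 '' W = W := by
  ext x
  constructor
  · rintro ⟨y, hy, rfl⟩; exact C.maps hy
  · intro hx
    obtain ⟨y, rfl⟩ := C.T2_surj hs x
    exact ⟨y, (C.mem_iff y).1 hx, rfl⟩

theorem conicalAt [FiniteDimensional ℝ E] (hs : 0 ≤ s) {y : E} (hy : y ∈ W) :
    ConicalWithinAt C.T2 univ y := by
  obtain ⟨J, _, _, h3, _⟩ := C.exists_loc (C.maps hy)
  exact res_conicalAt hs C.res h3

theorem conicalOn [FiniteDimensional ℝ E] (hs : 0 ≤ s) (hW : IsOpen W) : ConicalOn C.T2 W :=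
  fun y hy => (C.conicalAt hs hy).mono_set (P073.IsOpen.conicalSet hW y hy) (subset_univ _)

/-- **(C4)** (constant slope) -/
theorem exists_conHomeo [FiniteDimensional ℝ E] (hs : 0 < s) (hW : IsOpen W) {κ : ℝ}
    (hκ0 : 0 < κ) (hκ1 : κ ≤ 1) :
    ∃ g : ConHomeo W W, ∀ y ∈ W, g.toFun y = (1 - κ) • C.T2 y + κ • y := by
  refine exists_conHomeo_res (w := C.w) (c := C.c) hW C.convex C.cont hs C.res
    (fun y hy => ?_) C.id_off hκ0 hκ1
  obtain ⟨J, _, _, h3, _⟩ := C.exists_loc (C.maps hy)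
  exact ⟨J, h3⟩

/-- only one active cell: contact -/
theorem eq_of_act_subset [FiniteDimensional ℝ E] {y z : E} (hy : y ∈ W)
    (h : C.act (C.T2 y) ⊆ {z}) : C.T2 y = s • y - C.w z := by
  have h1 := C.mem_hull hy
  have h2 : C.w '' C.act (C.T2 y) ⊆ {C.w z} := by
    rintro _ ⟨i, hi, rfl⟩
    rw [h hi]; rfl
  have h3 := convexHull_mono h2 h1
  rw [convexHull_singleton, mem_singleton_iff] at h3
  rw [← h3]; abel

theorem act_eq_singleton {x : E} (hx : x ∈ W) (hX : x ∉ C.X) : ∃ z ∈ C.Z, C.act x = {z} := by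
  obtain ⟨z, hz⟩ := C.act_nonempty hx
  refine ⟨z, hz.1, Subset.antisymm (fun z' hz' => ?_) (singleton_subset_iff.2 hz)⟩
  by_contra hne
  exact hX ⟨hx, z', hz', z, hz, hne⟩

/-- **`V0` goes into the skeleton** -/
theorem T2_mem_X [FiniteDimensional ℝ E] {y : E} (hy : y ∈ W) (hy0 : y ∈ V0) :
    C.T2 y ∈ C.X := by
  by_contra hX
  obtain ⟨z, hz, h⟩ := C.act_eq_singleton (C.maps hy) hX
  exact (C.contact y z hz (C.eq_of_act_subset hy h.subset)).2.1 hy0

/-- **the skeleton is closed in `W`** -/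
theorem eventually_notMem_X {x : E} (hx : x ∈ W) (hX : x ∉ C.X) :
    ∃ z ∈ C.Z, C.act x = {z} ∧ ∀ᶠ x' in 𝓝 x, C.act x' ⊆ {z} := by
  obtain ⟨z, hz, h⟩ := C.act_eq_singleton hx hX
  obtain ⟨J, h1, _, _, h4⟩ := C.exists_loc hx
  refine ⟨z, hz, h, ?_⟩
  filter_upwards [h4] with x' h'
  rwa [h1, h] at h'

theorem isClosed_X (hW : IsOpen W) : IsClosed (C.X ∪ Wᶜ) := by
  rw [← isOpen_compl_iff, isOpen_iff_mem_nhds]
  intro x hx
  rw [mem_compl_iff, mem_union, not_or, mem_compl_iff, not_not] at hx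
  obtain ⟨z, _, _, h⟩ := C.eventually_notMem_X hx.2 hx.1
  filter_upwards [h, hW.mem_nhds hx.2] with x' h' hxW
  rw [mem_compl_iff, mem_union, not_or, mem_compl_iff, not_not]
  refine ⟨?_, hxW⟩
  rintro ⟨_, a, ha, b, hb, hab⟩
  exact hab ((h' ha).trans (h' hb).symm)

/-- **planes**: near every point of `W` the skeleton lies in the planes `l_i = l_j`, `i, j` active
at `x`, and the slopes are affinely independent. -/
theorem exists_planes [FiniteDimensional ℝ E] {x : E} (hx : x ∈ W) :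
    ∃ J : Finset E, (J : Set E) = C.act x ∧ AffineIndependent ℝ (fun z : J => C.w z) ∧
      J.card ≤ Module.finrank ℝ E + 1 ∧ (∀ i ∈ J, ∀ j ∈ J, i ≠ j → C.w i ≠ C.w j) ∧
      ∀ᶠ x' in 𝓝 x, x' ∈ C.X → ∃ i ∈ J, ∃ j ∈ J, i ≠ j ∧
        ⟪C.w i - C.w j, x'⟫ = C.c i - C.c j := by
  obtain ⟨J, h1, _, h3, h4⟩ := C.exists_loc hx
  have hact : ∀ z ∈ J, z ∈ C.act x := fun z hz => by rw [← h1]; exact hz
  have haff := C.generic J (fun z hz => (hact z hz).1) x (C.psi x)
    fun z hz => (hact z hz).2.symm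
  refine ⟨J, h1, haff, ?_, ?_, ?_⟩
  · have h5 := haff.card_le_finrank_succ
    rw [Fintype.card_coe] at h5
    refine h5.trans (Nat.succ_le_succ (Submodule.finrank_le _))
  · intro i hi j hj hij he
    have := haff.injective (a₁ := ⟨i, hi⟩) (a₂ := ⟨j, hj⟩) he
    exact hij (congrArg Subtype.val this)
  · filter_upwards [h4] with x' h' hX
    obtain ⟨_, i, hi, j, hj, hij⟩ := hX
    refine ⟨i, h' hi, j, h' hj, hij, ?_⟩
    rw [inner_sub_left]
    have h5 := hi.2
    have h6 := hj.2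
    linarith

/-- **(AFF)** off the skeleton `T2` is locally a homothety -/
theorem exists_affine [FiniteDimensional ℝ E] (hs : 0 ≤ s) (hW : IsOpen W) {y : E} (hy : y ∈ W)
    (hX : C.T2 y ∉ C.X) : ∃ z ∈ C.Z, C.act (C.T2 y) = {z} ∧
      ∀ᶠ y' in 𝓝 y, C.T2 y' = s • y' - C.w z := by
  obtain ⟨z, hz, h, h'⟩ := C.eventually_notMem_X (C.maps hy) hX
  refine ⟨z, hz, h, ?_⟩
  filter_upwards [((C.continuous hs).tendsto y).eventually h', hW.mem_nhds hy] with y' h1 h2
  exact C.eq_of_act_subset h2 h1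

/-- `T2` is injective off the preimage of the skeleton -/
theorem T2_inj [FiniteDimensional ℝ E] (hs : 0 < s) {y y' : E} (hy : y ∈ W)
    (hX : C.T2 y ∉ C.X) (h : C.T2 y = C.T2 y') : y = y' := by
  obtain ⟨z, hz, h1⟩ := C.act_eq_singleton (C.maps hy) hX
  have hy' : y' ∈ W := (C.mem_iff y').1 (h ▸ C.maps hy)
  have h2 := C.eq_of_act_subset hy h1.subset
  have h3 := C.eq_of_act_subset hy' (z := z) (by rw [← h]; exact h1.subset)
  have h4 : s • y = s • y' := by
    have : s • y - C.w z = s • y' - C.w z := by rw [← h2, ← h3, h]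
    exact sub_left_injective this
  exact smul_right_injective E hs.ne' h4

/-! ### volume -/

section volume

variable [FiniteDimensional ℝ E] [MeasurableSpace E] [BorelSpace E] (μ : Measure E)
  [μ.IsAddHaarMeasure]

theorem measure_plane {v : E} (hv : v ≠ 0) (c : ℝ) : μ {x | ⟪v, x⟫ = c} = 0 := by
  set p : E := (c / ‖v‖ ^ 2) • v with hp
  have hv2 : ‖v‖ ^ 2 ≠ 0 := by positivity
  set A : AffineSubspace ℝ E := AffineSubspace.mk' p (LinearMap.ker (innerₛₗ ℝ v)) with hA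
  have hsub : {x | ⟪v, x⟫ = c} ⊆ (A : Set E) := by
    intro x hx
    rw [mem_ofPred_eq] at hx
    rw [SetLike.mem_coe, AffineSubspace.mem_mk', LinearMap.mem_ker, innerₛₗ_apply_apply,
      vsub_eq_sub, inner_sub_right, hx, hp, inner_smul_right, real_inner_self_eq_norm_sq]
    field_simp
    simp
  refine measure_mono_null hsub (Measure.addHaar_affineSubspace μ A ?_)
  intro htop
  have h1 : v ∈ A.direction := by rw [htop, AffineSubspace.direction_top]; trivial
  rw [hA, AffineSubspace.direction_mk', LinearMap.mem_ker, innerₛₗ_apply_apply,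
    real_inner_self_eq_norm_sq] at h1
  exact hv2 h1

/-- the skeleton is a null set -/
theorem measure_X : μ C.X = 0 := by
  classical
  apply measure_null_of_locally_null
  intro x hx
  obtain ⟨J, _, _, _, h4, h5⟩ := C.exists_planes (C.X_subset hx)
  refine ⟨C.X ∩ {x' | x' ∈ C.X → ∃ i ∈ J, ∃ j ∈ J, i ≠ j ∧
        ⟪C.w i - C.w j, x'⟫ = C.c i - C.c j}, inter_mem_nhdsWithin _ h5, ?_⟩
  have hsub : C.X ∩ {x' | x' ∈ C.X → ∃ i ∈ J, ∃ j ∈ J, i ≠ j ∧
        ⟪C.w i - C.w j, x'⟫ = C.c i - C.c j} ⊆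
      ⋃ p ∈ (J ×ˢ J).filter (fun p => p.1 ≠ p.2),
        {x' | ⟪C.w p.1 - C.w p.2, x'⟫ = C.c p.1 - C.c p.2} := by
    rintro x' ⟨h1, h2⟩
    obtain ⟨i, hi, j, hj, hij, h⟩ := h2 h1
    simp only [mem_iUnion]
    exact ⟨(i, j), by simp [hi, hj, hij], h⟩
  refine measure_mono_null hsub (nonpos_iff_eq_zero.1 ?_)
  refine (measure_biUnion_finset_le _ _).trans (Finset.sum_eq_zero fun p hp => ?_).le
  have hp' : (p.1 ∈ J ∧ p.2 ∈ J) ∧ p.1 ≠ p.2 := by simpa using hp
  exact measure_plane μ (sub_ne_zero.2 (h4 _ hp'.1.1 _ hp'.1.2 hp'.2)) _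

/-- **VOLUME**: the points not mapped to the skeleton -/
theorem measure_good (hs : 0 < s) (hW : IsOpen W) :
    μ {y | y ∈ W ∧ C.T2 y ∉ C.X} =
      ENNReal.ofReal (|(s ^ Module.finrank ℝ E)⁻¹|) * μ W := by
  have hcount : C.Z.Countable := countable_of_locFin hW (fun z hz => (C.Z_sub hz).1) C.Z_fin
  set O : E → Set E := fun z => {x | x ∈ W ∧ C.act x = {z}} with hO
  have hOX : ∀ z, ∀ x ∈ O z, x ∉ C.X := by
    rintro z x ⟨_, h⟩ ⟨_, a, ha, b, hb, hab⟩
    rw [h] at ha hb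
    exact hab (ha.trans hb.symm)
  have hOopen : ∀ z, IsOpen (O z) := by
    intro z
    rw [isOpen_iff_mem_nhds]
    intro x hx
    obtain ⟨z', _, h1, h2⟩ := C.eventually_notMem_X hx.1 (hOX z x hx)
    have hzz : z' = z := by
      have := h1.symm.trans hx.2
      exact singleton_injective this
    subst hzz
    filter_upwards [h2, hW.mem_nhds hx.1] with x' h3 h4
    exact ⟨h4, (subset_singleton_iff_eq.1 h3).resolve_left (C.act_nonempty h4).ne_empty⟩
  have hOdisj : C.Z.PairwiseDisjoint O := by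
    intro z _ z' _ hne
    rw [Function.onFun, disjoint_left]
    rintro x ⟨_, h1⟩ ⟨_, h2⟩
    exact hne (singleton_injective (h1.symm.trans h2))
  set P : E → Set E := fun z => (fun y => s • y) ⁻¹' ((fun y => y - C.w z) ⁻¹' O z) with hP
  have hPT : ∀ z, ∀ y ∈ P z, C.T2 y ∈ O z ∧ C.T2 y = s • y - C.w z := by
    intro z y hy
    have hy' : s • y - C.w z ∈ O z := hy
    have h1 : C.T2 y = s • y - C.w z := by
      refine C.T2_of_act hs.le (z := z) ?_ (by abel)
      rw [hy'.2]; rfl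
    exact ⟨h1 ▸ hy', h1⟩
  have hPopen : ∀ z, IsOpen (P z) := fun z =>
    ((hOopen z).preimage (by fun_prop)).preimage (by fun_prop)
  have hPdisj : C.Z.PairwiseDisjoint P := by
    intro z hz z' hz' hne
    rw [Function.onFun, disjoint_left]
    intro y h1 h2
    exact disjoint_left.1 (hOdisj hz hz' hne) (hPT z y h1).1 (hPT z' y h2).1
  have hU : {y | y ∈ W ∧ C.T2 y ∉ C.X} = ⋃ z ∈ C.Z, P z := by
    ext y
    simp only [mem_ofPred_eq, mem_iUnion]
    constructor
    · rintro ⟨hy, hX⟩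
      obtain ⟨z, hz, h⟩ := C.act_eq_singleton (C.maps hy) hX
      refine ⟨z, hz, ?_⟩
      change s • y - C.w z ∈ O z
      rw [← C.eq_of_act_subset hy h.subset]
      exact ⟨C.maps hy, h⟩
    · rintro ⟨z, hz, hy⟩
      obtain ⟨h1, _⟩ := hPT z y hy
      exact ⟨(C.mem_iff y).1 h1.1, hOX z _ h1⟩
  have hWX : W \ C.X = ⋃ z ∈ C.Z, O z := by
    ext x
    simp only [Set.mem_sdiff, mem_iUnion]
    constructor
    · rintro ⟨hx, hX⟩
      obtain ⟨z, hz, h⟩ := C.act_eq_singleton hx hX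
      exact ⟨z, hz, hx, h⟩
    · rintro ⟨z, hz, hx⟩
      exact ⟨hx.1, hOX z x hx⟩
  have hm : ∀ z, μ (P z) = ENNReal.ofReal (|(s ^ Module.finrank ℝ E)⁻¹|) * μ (O z) := by
    intro z
    rw [hP, Measure.addHaar_preimage_smul μ hs.ne']
    congr 1
    simp only [sub_eq_add_neg]
    exact measure_preimage_add_right μ _ _
  rw [hU, measure_biUnion hcount hPdisj fun z _ => (hPopen z).measurableSet]
  simp only [hm]
  rw [ENNReal.tsum_mul_left, ← measure_biUnion hcount hOdisj fun z _ => (hOopen z).measurableSet,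
    ← hWX, measure_sdiff_null (C.measure_X μ)]

end volume

end PLCollapse

end P073.H608
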