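import Vale.Agent.P073.H608.ColApi
import Vale.Agent.P073.COL605.Col

/-!
# P073 [B1]: the collapse theorem [COL] and its piecewise linear form [COL-PL] put together
-/

open Set Metric MeasureTheory Filter Topology

namespace P073.H608

open Vale.Agent.P073 Vale.Agent.P073.COL605

variable {E : Type*} [NormedAddCommGroup E] [InnerProductSpace ℝ E]

/-- **[B1].** For every bounded open `W`, `0 < h < h2`, and every positive tolerance `ρ` there is
a scale `τ` such that every open `V ⊆ W` with `∫_V τ⁻ⁿ ≤ cThin` and every `V0 ⊆ V` closed in `W`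
have a piecewise linear collapse `T2` with constant `1 + h2`, `|T2 y - y| ≤ ρ y`. -/
theorem exists_collapse [FiniteDimensional ℝ E] [Nontrivial E] [MeasurableSpace E]
    [BorelSpace E] (μ : Measure E) [μ.IsAddHaarMeasure] {W : Set E} (hW : IsOpen W)
    (hWb : Bornology.IsBounded W) {h h2 : ℝ} (hh : 0 < h) (hh1 : h ≤ 1) (hh2 : h < h2)
    {ρ : E → ℝ} (hρ : LB W ρ) :
    ∃ τ : E → ℝ, (∀ y, 0 ≤ τ y) ∧ (∀ y, 0 < τ y ↔ y ∈ W) ∧ (∀ x y, τ y ≤ τ x + dist y x) ∧
      (∀ y ∈ W, τ y ≤ ρ y) ∧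
      ∀ V V0 : Set E, IsOpen V → V ⊆ W →
        ∫⁻ y in V, ENNReal.ofReal (1 / τ y) ^ Module.finrank ℝ E ∂μ ≤ cThin μ h →
        IsClosed (V0 ∪ Wᶜ) → V0 ⊆ V → ∀ tol : E → ℝ, LB W tol →
        ∃ (T : E → E) (C : PLCollapse W V V0 (1 + h2) T (fun y => min (tol y) (ρ y / 2))),
          ∀ y ∈ W, ‖C.T2 y - y‖ ≤ ρ y := by
  have hρ2 : LB W fun y => 1 / 2 * ρ y := hρ.const_mul (by norm_num)
  obtain ⟨τ, t1, t2, t3, t4, t5, t6⟩ := COL605.exists_scale μ hW hWb hh hh1
    (ρ := fun y => 1 / 2 * ρ y) (by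
      intro y hy
      obtain ⟨c, hc, hev⟩ := hρ2 y hy
      obtain ⟨d, hd, hb⟩ := Metric.eventually_nhds_iff.1 hev
      exact ⟨c, hc, d, hd, fun z _ hz => hb hz⟩)
  refine ⟨τ, t1, t2, t4, fun y hy => ?_, ?_⟩
  · have h1 := t3 y hy
    have h2 := hρ.pos hy
    linarith
  intro V V0 hV hVW hint hV0 hV0V tol htol
  obtain ⟨Φ, T, hC⟩ := t6 V hV hVW hint
  have hLB : LB W fun y => min (tol y) (ρ y / 2) := by
    have h1 := htol.min hρ2
    have e : (fun y => min (tol y) (ρ y / 2)) = fun y => min (tol y) (1 / 2 * ρ y) := by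
      funext y; congr 1; ring
    rw [e]; exact h1
  obtain ⟨C⟩ := exists_plCollapse (V := V) (V0 := V0) (tol := fun y => min (tol y) (ρ y / 2))
    hW hWb hh.le hh2 (T := T) (Φ := Φ)
    { pos := by linarith
      lower := hC.inp.sub
      upper := hC.inp.up } hC.meet hC.fix hC.maps hV0
    (by rw [hV.interior_eq]; exact fun y hy => hV0V hy.1) hLB
  refine ⟨T, C, fun y hy => ?_⟩
  have h1 := C.close y hy
  have h3 := hC.near y
  have h4 := t3 y hy
  have h5 := t1 y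
  have h6 : ‖C.T2 y - y‖ ≤ ‖C.T2 y - T y‖ + ‖T y - y‖ := by
    have e : C.T2 y - y = (C.T2 y - T y) + (T y - y) := by abel
    rw [e]; exact norm_add_le _ _
  have h7 : h * τ y ≤ τ y := by nlinarith
  have h8 := h1.trans (min_le_right _ _)
  linarith

end P073.H608
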