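import Vale.Agent.P073.H608.Pot
import Vale.Agent.P073.H716.Gen

/-!
# P073 [COL-PL]: the piecewise linear collapse

From a potential `Phi` (gradient `T`, (1+h)-Lipschitz) all of whose fibres meet the complement
of `V` we construct a generic locally finite family of affine functions `l_z`, `z ∈ Z ⊆ W \ V`,
and the resolvent `T2` of `psi = sup l_z`, which is uniformly (with variable tolerance) close to
`T`, conical in `W`, the identity off `W`, and maps `V0` into the points where at least two of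
the `l_z` are active.
-/

open Set Metric Topology Filter

namespace P073.H608

variable {E : Type*} [NormedAddCommGroup E] [InnerProductSpace ℝ E]

open scoped RealInnerProductSpace

/-- **Output of [COL-PL].** -/
structure PLCollapse (W V V0 : Set E) (s : ℝ) (T : E → E) (tol : E → ℝ) where
  /-- centres of the cells -/
  Z : Set E
  /-- slopes -/
  w : E → E
  /-- constants -/
  c : E → ℝ
  /-- the convex function -/
  psi : E → ℝ
  /-- the piecewise linear map -/
  T2 : E → E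
  Z_sub : Z ⊆ W \ V
  Z_fin : ∀ K ⊆ W, IsCompact K → (Z ∩ K).Finite
  w_eq : ∀ z, w z = s • z - T z
  convex : ConvexOn ℝ univ psi
  cont : Continuous psi
  le : ∀ z ∈ Z, ∀ x, ⟪w z, x⟫ - c z ≤ psi x
  res : ∀ y, IsSub psi (T2 y) (s • y - T2 y)
  loc : ∀ x ∈ W, ∃ J : Finset E, (∀ z, z ∈ J ↔ z ∈ Z ∧ psi x = ⟪w z, x⟫ - c z) ∧
    LocMax psi w c J x ∧ ∀ᶠ x' in 𝓝 x, ∀ z ∈ Z, psi x' = ⟪w z, x'⟫ - c z → z ∈ J
  small : ∀ x ∈ W, ∀ z ∈ Z, psi x = ⟪w z, x⟫ - c z → ‖T z - x‖ ≤ tol x
  generic : ∀ J : Finset E, (J : Set E) ⊆ Z → ∀ x v, (∀ z ∈ J, ⟪w z, x⟫ - c z = v) →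
    AffineIndependent ℝ (fun z : J => w z)
  close : ∀ y ∈ W, ‖T2 y - T y‖ ≤ tol y
  id_off : ∀ y ∉ W, T2 y = y
  maps : MapsTo T2 W W
  contact : ∀ y z, z ∈ Z → T2 y = s • y - w z → y ∈ W ∧ y ∉ V0 ∧ ‖y - z‖ ≤ tol y

section construction

variable [FiniteDimensional ℝ E]

/-- a positive function on `W`, locally bounded below -/
def LB (W : Set E) (a : E → ℝ) : Prop := ∀ y ∈ W, ∃ c > 0, ∀ᶠ y' in 𝓝 y, c ≤ a y'

omit [InnerProductSpace ℝ E] [FiniteDimensional ℝ E] in
theorem LB.min {W : Set E} {a b : E → ℝ} (ha : LB W a) (hb : LB W b) :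
    LB W fun y => min (a y) (b y) := by
  intro y hy
  obtain ⟨c, hc, h1⟩ := ha y hy
  obtain ⟨d, hd, h2⟩ := hb y hy
  refine ⟨Min.min c d, lt_min hc hd, ?_⟩
  filter_upwards [h1, h2] with y' h1 h2
  exact min_le_min h1 h2

omit [InnerProductSpace ℝ E] [FiniteDimensional ℝ E] in
theorem LB.of_continuousAt {W : Set E} {a : E → ℝ} (ha : ∀ y ∈ W, ContinuousAt a y)
    (hpos : ∀ y ∈ W, 0 < a y) : LB W a := by
  intro y hy
  refine ⟨a y / 2, by have := hpos y hy; positivity, ?_⟩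
  have h1 : a y / 2 < a y := by have := hpos y hy; linarith
  filter_upwards [(ha y hy).eventually (lt_mem_nhds h1)] with y' h using h.le

omit [InnerProductSpace ℝ E] [FiniteDimensional ℝ E] in
theorem LB.const_mul {W : Set E} {a : E → ℝ} (ha : LB W a) {k : ℝ} (hk : 0 < k) :
    LB W fun y => k * a y := by
  intro y hy
  obtain ⟨c, hc, h1⟩ := ha y hy
  refine ⟨k * c, by positivity, ?_⟩
  filter_upwards [h1] with y' h1
  exact mul_le_mul_of_nonneg_left h1 hk.le

omit [InnerProductSpace ℝ E] [FiniteDimensional ℝ E] in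
theorem LB.pos {W : Set E} {a : E → ℝ} (ha : LB W a) {y : E} (hy : y ∈ W) : 0 < a y := by
  obtain ⟨c, hc, h1⟩ := ha y hy
  exact hc.trans_le h1.self_of_nhds

omit [InnerProductSpace ℝ E] in
/-- the one 1-Lipschitz scale function governing the whole construction -/
theorem exists_scale [InnerProductSpace ℝ E] [FiniteDimensional ℝ E] {W : Set E} (hWo : IsOpen W) (hWb : Bornology.IsBounded W)
    (hWc : Wᶜ.Nonempty) {T : E → E} (hT : Continuous T) (hTW : ∀ y ∉ W, T y = y)
    {a b : E → ℝ} (ha : LB W a) (hb : LB W b) {k : ℝ} (hk : 0 < k) (hk1 : k ≤ 1) :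
    ∃ m : E → ℝ, (∀ x x', m x ≤ m x' + dist x x') ∧ (∀ x, 0 ≤ m x) ∧ (∀ x ∈ W, 0 < m x) ∧
      (∀ y ∈ W, m (T y) ≤ a y) ∧ (∀ x ∈ W, m x ≤ b x) ∧ (∀ x, m x ≤ k * infDist x Wᶜ) := by
  obtain ⟨m1, h1, h1', h1'', h1'''⟩ := exists_lower hWb hT hTW ha fun y hy => ha.pos hy
  obtain ⟨m2, h2, h2', h2'', h2'''⟩ := exists_lower hWb continuous_id (fun y _ => rfl) hb
    fun y hy => hb.pos hy
  refine ⟨fun x => min (min (m1 x) (m2 x)) (k * infDist x Wᶜ), ?_, ?_, ?_, ?_, ?_, ?_⟩
  · intro x x'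
    have h3 : k * infDist x Wᶜ ≤ k * infDist x' Wᶜ + dist x x' := by
      have h4 := infDist_le_infDist_add_dist (s := Wᶜ) (x := x) (y := x')
      have h5 : k * dist x x' ≤ dist x x' := by
        have : (0:ℝ) ≤ dist x x' := dist_nonneg
        nlinarith
      have := mul_le_mul_of_nonneg_left h4 hk.le
      linarith
    have h4 := h1 x x'
    have h5 := h2 x x'
    simp only
    rw [← min_add_add_right, ← min_add_add_right]
    exact min_le_min (min_le_min h4 h5) h3
  · intro x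
    exact le_min (le_min (h1' x) (h2' x)) (mul_nonneg hk.le infDist_nonneg)
  · intro x hx
    have h3 : 0 < infDist x Wᶜ := by
      rw [← hWo.isClosed_compl.notMem_iff_infDist_pos hWc]
      exact fun h => h hx
    exact lt_min (lt_min (h1'' x hx) (h2'' x hx)) (mul_pos hk h3)
  · intro y hy
    exact ((min_le_left _ _).trans (min_le_left _ _)).trans (h1''' y hy)
  · intro x hx
    exact ((min_le_left _ _).trans (min_le_right _ _)).trans (h2''' x hx)
  · intro x
    exact min_le_right _ _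

omit [InnerProductSpace ℝ E] in
theorem countable_of_locFin [InnerProductSpace ℝ E] [FiniteDimensional ℝ E] {W Z : Set E}
    (hWo : IsOpen W) (hZW : Z ⊆ W) (hZ : ∀ K ⊆ W, IsCompact K → (Z ∩ K).Finite) :
    Z.Countable := by
  have : LocallyCompactSpace W := hWo.locallyCompactSpace
  have h1 : Z ⊆ ⋃ n : ℕ, Z ∩ ((↑) '' compactCovering W n : Set E) := by
    intro z hz
    have h2 : (⟨z, hZW hz⟩ : W) ∈ ⋃ n, compactCovering W n := by
      rw [iUnion_compactCovering]; trivial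
    obtain ⟨n, hn⟩ := mem_iUnion.1 h2
    exact mem_iUnion.2 ⟨n, hz, ⟨z, hZW hz⟩, hn, rfl⟩
  refine (countable_iUnion fun n => ?_).mono h1
  refine (hZ _ ?_ ?_).countable
  · rintro _ ⟨z, _, rfl⟩; exact z.2
  · exact (isCompact_compactCovering W n).image continuous_subtype_val

/-- the centres and the generic perturbations -/
theorem exists_centres {W V : Set E} (hWo : IsOpen W) {T : E → E} (hT : Continuous T)
    {m : E → ℝ} (hm1 : ∀ x x', m x ≤ m x' + dist x x') (hmW : ∀ x ∈ W, 0 < m x)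
    (hTm : MapsTo T W W) {r : ℝ} (hr : 0 < r) (w : E → E) (c : E → ℝ) :
    ∃ Z ⊆ W \ V, (∀ K ⊆ W, IsCompact K → (Z ∩ K).Finite) ∧
      (∀ y ∈ W \ V, ∃ z ∈ Z, ‖z - y‖ ≤ r * m (T y)) ∧
      ∃ η : E → ℝ, (∀ z ∈ Z, 0 < η z ∧ η z ≤ m (T z) ^ 2 / 18) ∧
        ∀ J : Finset E, (J : Set E) ⊆ Z → ∀ x v, (∀ z ∈ J, ⟪w z, x⟫ - (c z + η z) = v) →
          AffineIndependent ℝ (fun z : J => w z) := by
  classical
  obtain ⟨Z, hZA, hsep, hmax⟩ := exists_net (W \ V) (fun y => r * m (T y))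
  have hmc : Continuous m := by
    have : LipschitzWith 1 m := LipschitzWith.of_le_add hm1
    exact this.continuous
  have hρ : LB W fun y => r * m (T y) :=
    LB.of_continuousAt (fun y _ => by fun_prop) fun y hy => mul_pos hr (hmW _ (hTm hy))
  have hfin : ∀ K ⊆ W, IsCompact K → (Z ∩ K).Finite := fun K hKW hK =>
    net_finite hsep hρ hK hKW
  have hZW : Z ⊆ W := fun z hz => (hZA hz).1
  have hcount := countable_of_locFin hWo hZW hfin
  have : Countable Z := hcount.to_subtype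
  obtain ⟨η, hη, hgen⟩ := Vale.Agent.P073.H716.exists_generic (ι := Z) (W := E)
    (fun z => w z) (fun z => c z) (fun z => m (T z) ^ 2 / 18) (fun z => by
      have := hmW _ (hTm (hZW z.2))
      positivity)
  refine ⟨Z, hZA, hfin, ?_, fun z => if h : z ∈ Z then η ⟨z, h⟩ else 0, ?_, ?_⟩
  · intro y hy
    have hpos : 0 < r * m (T y) := mul_pos hr (hmW _ (hTm hy.1))
    obtain ⟨z, hz, h | h⟩ := hmax y hy hpos
    · exact ⟨z, hz, by rw [← dist_eq_norm, dist_comm]; exact h.le⟩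
    · exact ⟨z, hz, by rw [h, sub_self, norm_zero, ← h]; exact hpos.le⟩
  · intro z hz
    simp only [dif_pos hz]
    exact ⟨(hη ⟨z, hz⟩).1, (hη ⟨z, hz⟩).2.le⟩
  · intro J hJ x v hJv
    set J' : Finset Z := J.subtype (fun z => z ∈ Z) with hJ'
    have h1 := hgen J' (innerₛₗ ℝ x) v (by
      intro j hj
      have hjJ : (j : E) ∈ J := by simpa [hJ'] using hj
      have h2 := hJv j hjJ
      simp only [dif_pos j.2] at h2
      rw [innerₛₗ_apply_apply, real_inner_comm]
      exact h2)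
    exact AffineIndependent.comp_embedding (⟨fun z => ⟨⟨z, hJ z.2⟩, by simp [hJ']⟩, fun z z' h => by
      simp only [Subtype.mk.injEq] at h
      exact Subtype.ext h⟩ : J ↪ J') h1

/-- **[COL-PL].** -/
theorem exists_plCollapse [Nontrivial E] {W V V0 : Set E} {h h2 : ℝ} {Φ : E → ℝ} {T : E → E}
    {tol : E → ℝ} (hWo : IsOpen W) (hWb : Bornology.IsBounded W) (hh : 0 ≤ h) (hh2 : h < h2)
    (P : Pot Φ T (1 + h)) (H3 : ∀ x, ∃ z ∉ V, T z = x) (H4 : ∀ z ∉ W, T z = z)
    (H4' : MapsTo T W W) (H5 : IsClosed (V0 ∪ Wᶜ)) (H5' : V0 ∩ W ⊆ interior V)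
    (htol : LB W tol) : Nonempty (PLCollapse W V V0 (1 + h2) T tol) := by
  classical
  obtain ⟨L, hLdef⟩ : ∃ L, L = 1 + h := ⟨_, rfl⟩
  obtain ⟨s, hsdef⟩ : ∃ s, s = 1 + h2 := ⟨_, rfl⟩
  rw [← hLdef] at P
  rw [← hsdef]
  have hL1 : 1 ≤ L := by linarith
  have hLs : L < s := by linarith
  have hs1 : 1 < s := by linarith
  have hs0 : 0 < s := by linarith
  have hL0 : 0 < L := by linarith
  have hTc : Continuous T := P.continuous
  have hWc : Wᶜ.Nonempty := by
    rw [nonempty_compl]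
    rintro rfl
    exact NormedSpace.unbounded_univ ℝ E hWb
  obtain ⟨κ, hκdef⟩ : ∃ κ, κ = (s - L) / (2 * L) := ⟨_, rfl⟩
  have hκ : 0 < κ := by rw [hκdef]; exact div_pos (by linarith) (by linarith)
  obtain ⟨k, hk0, hk1, hkκ⟩ : ∃ k : ℝ, 0 < k ∧ k ≤ 1 ∧ k ^ 2 ≤ κ := by
    refine ⟨min 1 (Real.sqrt κ), lt_min one_pos (Real.sqrt_pos.2 hκ), min_le_left _ _, ?_⟩
    have h1 : min 1 (Real.sqrt κ) ≤ Real.sqrt κ := min_le_right _ _
    have h2 : 0 ≤ min 1 (Real.sqrt κ) := le_min zero_le_one (Real.sqrt_nonneg _)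
    calc min 1 (Real.sqrt κ) ^ 2 ≤ Real.sqrt κ ^ 2 := by gcongr
      _ = κ := Real.sq_sqrt hκ.le
  obtain ⟨zV, hzV, -⟩ := H3 0
  have hVc : (Vᶜ).Nonempty := ⟨zV, hzV⟩
  -- the constraint coming from `V0`
  have hVpos : ∀ y ∈ V0 ∩ W, 0 < infDist y Vᶜ := by
    intro y hy
    have h1 : y ∉ closure Vᶜ := by
      rw [closure_compl]; exact fun h => h (H5' hy)
    exact (infDist_pos_iff_notMem_closure hVc).1 h1
  have hg : LB W fun y => if y ∈ V0 then (s - L) / 2 * infDist y Vᶜ else 1 := by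
    intro y hy
    by_cases hyV : y ∈ V0
    · have h1 := hVpos y ⟨hyV, hy⟩
      refine ⟨min 1 ((s - L) / 2 * (infDist y Vᶜ / 2)), lt_min one_pos
        (mul_pos (by linarith) (by linarith)), ?_⟩
      have h2 : ∀ᶠ y' in 𝓝 y, infDist y Vᶜ / 2 < infDist y' Vᶜ :=
        (continuous_infDist_pt _).continuousAt.eventually (lt_mem_nhds (by linarith))
      filter_upwards [h2] with y' h2
      split_ifs
      · refine (min_le_right _ _).trans ?_
        exact mul_le_mul_of_nonneg_left h2.le (by linarith)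
      · exact min_le_left _ _
    · refine ⟨1, one_pos, ?_⟩
      have h1 : (V0 ∪ Wᶜ)ᶜ ∈ 𝓝 y := H5.isOpen_compl.mem_nhds (by
        simp only [mem_compl_iff, mem_union, not_or, not_not]
        exact ⟨hyV, hy⟩)
      filter_upwards [h1] with y' h1
      rw [if_neg fun h => h1 (Or.inl h)]
  have ha := (htol.min (htol.const_mul (sub_pos.2 hLs))).min hg
  have hb := htol.const_mul hk0
  obtain ⟨m, hm1, hm0, hmW, hma, hmb, hmd⟩ := exists_scale hWo hWb hWc hTc H4 ha hb hk0 hk1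
  -- the centres
  obtain ⟨w, hw⟩ : ∃ w : E → E, ∀ z, w z = s • z - T z := ⟨_, fun _ => rfl⟩
  obtain ⟨c₀, hc₀⟩ : ∃ c₀ : E → ℝ, ∀ z, c₀ z = s * Φ z - ‖T z‖ ^ 2 / 2 := ⟨_, fun _ => rfl⟩
  obtain ⟨Z, hZsub, hZfin, hZnet, η, hη, hgen⟩ := exists_centres (V := V) hWo hTc hm1 hmW H4'
    (r := 1 / (2 * s * L)) (by positivity) w c₀
  have hZW : Z ⊆ W := fun z hz => (hZsub hz).1
  obtain ⟨c, hc⟩ : ∃ c : E → ℝ, ∀ z, c z = c₀ z + if z ∈ Z then η z else 0 :=
    ⟨_, fun _ => rfl⟩
  have hcZ : ∀ z ∈ Z, c z = c₀ z + η z := fun z hz => by rw [hc, if_pos hz]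
  have hcW : ∀ z ∉ W, c z = c₀ z := fun z hz => by
    rw [hc, if_neg fun h => hz (hZW h), add_zero]
  have hc₀c : ∀ z, c₀ z ≤ c z := by
    intro z
    rw [hc]
    split_ifs with h
    · linarith [(hη z h).1]
    · linarith
  have hell : ∀ z x, ⟪w z, x⟫ - c₀ z = Pot.ell Φ T s z x := fun z x => by
    rw [Pot.ell, hw, hc₀]
  -- the envelope
  choose z0 hz0V hz0T using H3
  obtain ⟨ψE, hψE'⟩ : ∃ ψE : E → ℝ, ∀ x, ψE x = Pot.val Φ T s (z0 x) := ⟨_, fun _ => rfl⟩
  have hψE : ∀ y, ψE (T y) = Pot.val Φ T s y := fun y => by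
    rw [hψE']; exact P.val_eq s (hz0T _)
  have hlow : ∀ x z, κ * ‖x - T z‖ ^ 2 ≤ ψE x - (⟪w z, x⟫ - c₀ z) := by
    intro x z
    have := P.ell_lower hs0.le (z0 x) z
    rw [hz0T, ← hψE', ← hell, ← hκdef] at this
    exact this
  have hup : ∀ x z, ψE x - (⟪w z, x⟫ - c₀ z) ≤ s * L / 2 * ‖z - z0 x‖ ^ 2 := by
    intro x z
    have := P.ell_upper hs0.le (z0 x) z
    rw [hz0T, ← hψE', ← hell] at this
    exact this
  have hself : ∀ y, ⟪w y, T y⟫ - c₀ y = ψE (T y) := fun y => by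
    rw [hell, Pot.ell_self, hψE]
  have hlow0 : ∀ x z, ⟪w z, x⟫ - c₀ z ≤ ψE x := fun x z => by
    have := hlow x z
    have h2 : 0 ≤ κ * ‖x - T z‖ ^ 2 := by positivity
    linarith
  -- the function `ψ`
  set S : Set E := Z ∪ Wᶜ with hS
  obtain ⟨ψ, hψ⟩ : ∃ ψ : E → ℝ, ∀ x, ψ x = sSup ((fun z => ⟪w z, x⟫ - c z) '' S) :=
    ⟨_, fun _ => rfl⟩
  have hSne : S.Nonempty := hWc.mono subset_union_right
  have hne : ∀ x, ((fun z => ⟪w z, x⟫ - c z) '' S).Nonempty := fun x => hSne.image _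
  have hub : ∀ x, ∀ z, ⟪w z, x⟫ - c z ≤ ψE x := fun x z => by
    have := hlow0 x z
    have := hc₀c z
    linarith
  have hbdd : ∀ x, BddAbove ((fun z => ⟪w z, x⟫ - c z) '' S) := by
    intro x
    refine ⟨ψE x, ?_⟩
    rintro _ ⟨z, _, rfl⟩
    exact hub x z
  have hle : ∀ z ∈ S, ∀ x, ⟪w z, x⟫ - c z ≤ ψ x := fun z hz x => by
    rw [hψ]; exact le_csSup (hbdd x) ⟨z, hz, rfl⟩
  have hψle : ∀ x, ψ x ≤ ψE x := by
    intro x
    rw [hψ]
    apply csSup_le (hne x)
    rintro _ ⟨z, _, rfl⟩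
    exact hub x z
  have hoff : ∀ x ∉ W, ψ x = ψE x ∧ ψ x = ⟪w x, x⟫ - c x := by
    intro x hx
    have h1 := hself x
    rw [H4 x hx, ← hcW x hx] at h1
    have h2 := hle x (Or.inr hx) x
    have h3 := hψle x
    exact ⟨by linarith, by linarith⟩
  have herr : ∀ x ∈ W, ψE x - ψ x ≤ m x ^ 2 / 4 := by
    intro x hx
    have hyW : z0 x ∈ W := by
      by_contra hn
      have := H4 _ hn
      rw [hz0T] at this
      exact hn (this ▸ hx)
    obtain ⟨z, hz, hzn⟩ := hZnet (z0 x) ⟨hyW, hz0V x⟩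
    rw [hz0T] at hzn
    have h1 := hup x z
    have h2 := hle z (Or.inl hz) x
    rw [hcZ z hz] at h2
    have hmx := hmW x hx
    have hsL : 1 ≤ s * L := by nlinarith
    have h3 : s * L / 2 * ‖z - z0 x‖ ^ 2 ≤ m x ^ 2 / 8 := by
      calc s * L / 2 * ‖z - z0 x‖ ^ 2 ≤ s * L / 2 * (1 / (2 * s * L) * m x) ^ 2 := by gcongr
        _ = m x ^ 2 / (8 * (s * L)) := by field_simp; ring
        _ ≤ m x ^ 2 / 8 := by
          apply div_le_div_of_nonneg_left (by positivity) (by positivity)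
          linarith
    have h4 : m (T z) ≤ 3 / 2 * m x := by
      have h5 := hm1 (T z) x
      have h6 : dist (T z) x ≤ L * (1 / (2 * s * L) * m x) := by
        rw [dist_eq_norm]
        conv_lhs => rw [← hz0T x]
        refine (P.lip (z0 x) z).trans ?_
        gcongr
      have h7 : L * (1 / (2 * s * L) * m x) = m x / (2 * s) := by field_simp
      have h8 : m x / (2 * s) ≤ m x / 2 := by
        apply div_le_div_of_nonneg_left hmx.le (by positivity)
        linarith
      linarith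
    have h9 : η z ≤ m x ^ 2 / 8 := by
      refine (hη z hz).2.trans ?_
      have h10 : m (T z) ^ 2 ≤ (3 / 2 * m x) ^ 2 := by
        have := hm0 (T z)
        gcongr
      have h11 : (3 / 2 * m x) ^ 2 = 9 / 4 * m x ^ 2 := by ring
      linarith
    linarith
  have hconv : ConvexOn ℝ univ ψ := by
    refine ⟨convex_univ, fun x _ y _ t u ht hu htu => ?_⟩
    rw [hψ (t • x + u • y)]
    apply csSup_le (hne _)
    rintro _ ⟨z, hz, rfl⟩
    have h1 := mul_le_mul_of_nonneg_left (hle z hz x) ht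
    have h2 := mul_le_mul_of_nonneg_left (hle z hz y) hu
    simp only [smul_eq_mul, inner_add_right, inner_smul_right]
    have h3 : c z = t * c z + u * c z := by rw [← add_mul, htu, one_mul]
    linarith
  have hcont : Continuous ψ := hconv.locallyLipschitz.continuous
  have hsub : ∀ z ∈ S, ∀ x, ψ x = ⟪w z, x⟫ - c z → IsSub ψ x (w z) := by
    intro z hz x hx y
    have := hle z hz y
    rw [hx, inner_sub_right]
    linarith
  obtain ⟨x₀, hx₀⟩ := hWc
  obtain ⟨T2, hT2⟩ := exists_resolvent hconv hcont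
    (hsub x₀ (Or.inr hx₀) x₀ (hoff x₀ hx₀).2) s
  have hclose2 : ∀ y, ‖T2 y - T y‖ ^ 2 ≤ ψE (T2 y) - ψ (T2 y) := by
    intro y
    have h1 := hT2 y (T y)
    have h2 := hψle (T y)
    have h3 := hlow0 (T2 y) y
    have h4 := hself y
    have h5 : ⟪w y, T2 y⟫ = ⟪w y, T y⟫ + ⟪w y, T2 y - T y⟫ := by
      rw [inner_sub_right]; ring
    have h6 : ⟪s • y - T2 y, T y - T2 y⟫ + ⟪w y, T2 y - T y⟫ = ‖T2 y - T y‖ ^ 2 := by
      have e : T y - T2 y = -(T2 y - T y) := by abel
      rw [e, inner_neg_right, ← real_inner_self_eq_norm_sq, hw, neg_add_eq_sub, ← inner_sub_left]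
      congr 1
      abel
    linarith
  have hid : ∀ y ∉ W, T2 y = y := by
    intro y hy
    apply res_eq hs0.le hT2
    have := hsub y (Or.inr hy) y (hoff y hy).2
    rwa [hw, H4 y hy] at this
  have hmaps : MapsTo T2 W W := by
    intro y hy
    by_contra hn
    have h1 := hclose2 y
    rw [(hoff _ hn).1, sub_self] at h1
    have h2 : T2 y - T y = 0 := by
      rw [← norm_eq_zero]
      exact pow_eq_zero_iff (two_ne_zero) |>.1 (le_antisymm h1 (by positivity))
    rw [sub_eq_zero] at h2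
    exact hn (h2 ▸ H4' hy)
  have hclose : ∀ y ∈ W, ‖T2 y - T y‖ ≤ m (T y) := by
    intro y hy
    have h1 := (hclose2 y).trans (herr _ (hmaps hy))
    have h2 : ‖T2 y - T y‖ ≤ m (T2 y) / 2 := by
      apply le_of_sq_le_sq _ (by have := hm0 (T2 y); positivity)
      calc ‖T2 y - T y‖ ^ 2 ≤ m (T2 y) ^ 2 / 4 := h1
        _ = (m (T2 y) / 2) ^ 2 := by ring
    have h3 := hm1 (T2 y) (T y)
    rw [dist_eq_norm] at h3
    linarith
  -- active cells
  have hWcl : IsClosed Wᶜ := hWo.isClosed_compl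
  have hloc : ∀ x₀ ∈ W, ∃ I : Finset E, (I : Set E) ⊆ Z ∧ ∃ γ > 0, ∀ᶠ x in 𝓝 x₀,
      (∀ z ∈ S, z ∉ I → ⟪w z, x⟫ - c z ≤ ψ x - γ) := by
    intro x₀ hx₀
    obtain ⟨d, hd⟩ : ∃ d, d = infDist x₀ Wᶜ := ⟨_, rfl⟩
    have hd0 : 0 < d := by
      rw [hd, ← hWcl.notMem_iff_infDist_pos ⟨_, ‹_›⟩]
      exact fun h => h hx₀
    have hKW : T ⁻¹' closedBall x₀ (3 / 4 * d) ⊆ W := by
      intro z hz
      by_contra hn
      rw [mem_preimage, H4 z hn, mem_closedBall, dist_comm] at hz
      have h1 : infDist x₀ Wᶜ ≤ dist x₀ z := infDist_le_dist_of_mem hn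
      linarith
    have hK : IsCompact (T ⁻¹' closedBall x₀ (3 / 4 * d)) :=
      Metric.isCompact_of_isClosed_isBounded (isClosed_closedBall.preimage hTc) (hWb.subset hKW)
    refine ⟨(hZfin _ hKW hK).toFinset, ?_, κ * d ^ 2 * (195 / 1024), by positivity, ?_⟩
    · intro z hz
      simp only [Finite.coe_toFinset] at hz
      exact hz.1
    · have hball : ball x₀ (d / 16) ∈ 𝓝 x₀ := ball_mem_nhds _ (by positivity)
      filter_upwards [hball] with x hx z hz hzI
      rw [mem_ball] at hx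
      have h1 : 11 / 16 * d ≤ ‖x - T z‖ := by
        have h2 : 3 / 4 * d ≤ dist (T z) x₀ := by
          rcases hz with hz | hz
          · by_contra hcon
            push Not at hcon
            apply hzI
            simp only [Finite.mem_toFinset]
            exact ⟨hz, by rw [mem_preimage, mem_closedBall]; exact hcon.le⟩
          · rw [H4 z hz, dist_comm]
            have h1 : infDist x₀ Wᶜ ≤ dist x₀ z := infDist_le_dist_of_mem hz
            linarith
        have h3 := dist_triangle (T z) x x₀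
        have h4 : dist (T z) x = ‖x - T z‖ := by rw [dist_comm, dist_eq_norm]
        linarith
      have h2 := hlow x z
      have h3 : κ * (11 / 16 * d) ^ 2 ≤ κ * ‖x - T z‖ ^ 2 := by gcongr
      have h4 : ψE x - ψ x ≤ m x ^ 2 / 4 := by
        by_cases hxW : x ∈ W
        · exact herr x hxW
        · rw [(hoff x hxW).1, sub_self]; positivity
      have h5 : m x ≤ k * (17 / 16 * d) := by
        refine (hmd x).trans ?_
        have h6 := infDist_le_infDist_add_dist (s := Wᶜ) (x := x) (y := x₀)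
        have h7 : infDist x Wᶜ ≤ 17 / 16 * d := by linarith
        exact mul_le_mul_of_nonneg_left h7 hk0.le
      have h6 : m x ^ 2 ≤ κ * (17 / 16 * d) ^ 2 := by
        have := hm0 x
        calc m x ^ 2 ≤ (k * (17 / 16 * d)) ^ 2 := by gcongr
          _ = k ^ 2 * (17 / 16 * d) ^ 2 := by ring
          _ ≤ κ * (17 / 16 * d) ^ 2 := by gcongr
      have h7 := hc₀c z
      have h8 : κ * (11 / 16 * d) ^ 2 - κ * (17 / 16 * d) ^ 2 / 4 =
          κ * d ^ 2 * (195 / 1024) := by ring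
      linarith
  refine ⟨{
    Z := Z, w := w, c := c, psi := ψ, T2 := T2
    Z_sub := hZsub
    Z_fin := hZfin
    w_eq := hw
    convex := hconv
    cont := hcont
    le := fun z hz => hle z (Or.inl hz)
    res := hT2
    loc := ?_
    small := ?_
    generic := ?_
    close := ?_
    id_off := hid
    maps := hmaps
    contact := ?_ }⟩
  · intro x hx
    obtain ⟨I, hIZ, γ, hγ, hI⟩ := hloc x hx
    -- the maximum is attained in `I`
    have hmax : ∀ᶠ x' in 𝓝 x, ∃ i ∈ I, ψ x' = ⟪w i, x'⟫ - c i := by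
      filter_upwards [hI] with x' hx'
      obtain ⟨_, ⟨z, hz, rfl⟩, hz'⟩ : ∃ b ∈ (fun z => ⟪w z, x'⟫ - c z) '' S, ψ x' - γ < b := by
        apply exists_lt_of_lt_csSup (hne x')
        rw [← hψ]; linarith
      have hzI : z ∈ I := by
        by_contra hn
        have := hx' z hz hn
        simp only at hz'
        linarith
      obtain ⟨i, hi, himax⟩ := I.exists_max_image (fun z => ⟪w z, x'⟫ - c z) ⟨z, hzI⟩
      refine ⟨i, hi, le_antisymm ?_ (hle i (Or.inl (hIZ hi)) x')⟩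
      rw [hψ]
      apply csSup_le (hne x')
      rintro _ ⟨z', hz'S, rfl⟩
      by_cases h : z' ∈ I
      · exact himax z' h
      · have h1 := hx' z' hz'S h
        have h2 := himax z hzI
        simp only at hz' h2 ⊢
        linarith
    have hLM : LocMax ψ w c I x := by
      filter_upwards [hmax] with x' hx'
      exact ⟨fun i hi => hle i (Or.inl (hIZ hi)) x', hx'⟩
    set J := I.filter fun z => ψ x = ⟪w z, x⟫ - c z with hJ
    have hJmem : ∀ i, i ∈ J ↔ i ∈ I ∧ ψ x = ⟪w i, x⟫ - c i := fun i => by simp [hJ]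
    refine ⟨J, ?_, hLM.filter hJmem, ?_⟩
    · intro z
      rw [hJmem]
      refine ⟨fun h => ⟨hIZ h.1, h.2⟩, fun h => ⟨?_, h.2⟩⟩
      by_contra hn
      have := hI.self_of_nhds z (Or.inl h.1) hn
      linarith [h.2]
    · have h1 : ∀ᶠ x' in 𝓝 x, ∀ z ∈ I, z ∉ J → ⟪w z, x'⟫ - c z < ψ x' := by
        rw [Finset.eventually_all]
        intro z hz
        by_cases hzJ : z ∈ J
        · exact Eventually.of_forall fun t hn => absurd hzJ hn
        · have hlt : ⟪w z, x⟫ - c z < ψ x := by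
            refine lt_of_le_of_ne (hle z (Or.inl (hIZ hz)) x) fun he => hzJ ?_
            rw [hJmem]
            exact ⟨hz, he.symm⟩
          have hc1 : Tendsto (fun x' : E => ⟪w z, x'⟫ - c z) (𝓝 x) (𝓝 (⟪w z, x⟫ - c z)) := by
            have : Continuous fun x' : E => ⟪w z, x'⟫ - c z := by fun_prop
            exact this.tendsto x
          filter_upwards [hc1.eventually_lt (hcont.tendsto x) hlt] with t ht _ using ht
      filter_upwards [hI, h1] with x' h2 h1 z hz hact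
      by_contra hzJ
      by_cases hzI : z ∈ I
      · exact absurd hact (h1 z hzI hzJ).ne'
      · have := h2 z (Or.inl hz) hzI
        linarith
  · intro x hx z hz hact
    have h1 := hlow x z
    have h2 := herr x hx
    rw [hcZ z hz] at hact
    have h3 := (hη z hz).1
    have h4 := hmb x hx
    have h5 : κ * ‖x - T z‖ ^ 2 ≤ m x ^ 2 / 4 := by linarith
    have h6 : 0 < tol x := htol.pos hx
    have h7 : m x ^ 2 ≤ κ * tol x ^ 2 := by
      have := hm0 x
      calc m x ^ 2 ≤ (k * tol x) ^ 2 := by gcongr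
        _ = k ^ 2 * tol x ^ 2 := by ring
        _ ≤ κ * tol x ^ 2 := by gcongr
    rw [norm_sub_rev]
    apply le_of_sq_le_sq _ h6.le
    have h8 : κ * ‖x - T z‖ ^ 2 ≤ κ * tol x ^ 2 := by
      have : 0 ≤ κ * tol x ^ 2 := by positivity
      linarith
    exact le_of_mul_le_mul_left h8 hκ
  · intro J hJ x v hJv
    refine hgen J hJ x v fun z hz => ?_
    rw [← hcZ z (hJ hz)]
    exact hJv z hz
  · intro y hy
    refine (hclose y hy).trans ((hma y hy).trans ?_)
    exact (min_le_left _ _).trans (min_le_left _ _)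
  · intro y z hz hyz
    have h1 : T2 y - T z = s • (y - z) := by
      rw [hyz, hw, smul_sub]; abel
    have h2 : s * ‖y - z‖ ≤ ‖T2 y - T y‖ + L * ‖y - z‖ := by
      have h3 : s * ‖y - z‖ = ‖T2 y - T z‖ := by
        rw [h1, norm_smul, Real.norm_of_nonneg hs0.le]
      have h4 : T2 y - T z = (T2 y - T y) + (T y - T z) := by abel
      rw [h3, h4]
      exact (norm_add_le _ _).trans (by gcongr; exact P.lip z y)
    have hyW : y ∈ W := by
      by_contra hn
      rw [hid y hn, H4 y hn, sub_self, norm_zero, zero_add] at h2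
      have h3 : ‖y - z‖ ≤ 0 := by
        by_contra hcon
        push Not at hcon
        nlinarith
      have h4 : y = z := sub_eq_zero.1 (norm_eq_zero.1 (le_antisymm h3 (norm_nonneg _)))
      exact hn (h4 ▸ hZW hz)
    have h3 := (hclose y hyW).trans (hma y hyW)
    have h4 : ‖T2 y - T y‖ ≤ (s - L) * tol y :=
      h3.trans ((min_le_left _ _).trans (min_le_right _ _))
    have h5 := h3.trans (min_le_right _ _)
    refine ⟨hyW, fun hyV => ?_, ?_⟩
    · rw [if_pos hyV] at h5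
      have h6 : infDist y Vᶜ ≤ ‖y - z‖ := by
        rw [← dist_eq_norm]; exact infDist_le_dist_of_mem (hZsub hz).2
      have h7 := hVpos y ⟨hyV, hyW⟩
      nlinarith
    · have h6 : (s - L) * ‖y - z‖ ≤ (s - L) * tol y := by linarith
      exact le_of_mul_le_mul_left h6 (sub_pos.2 hLs)

end construction

end P073.H608
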