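import Mathlib

/-!
# P073 [COL-PL] (1): nets of variable scale, Lipschitz lower bounds transported by `T`,
generic constants
-/

open Set Metric Topology Filter

namespace P073.H608

section net

variable {E : Type*} [MetricSpace E]

/-- a maximal `ρ`-separated subset of `A`, for a scale `ρ` depending on the point -/
theorem exists_net (A : Set E) (ρ : E → ℝ) :
    ∃ Z ⊆ A, (Z.Pairwise fun z z' => min (ρ z) (ρ z') ≤ dist z z') ∧
      ∀ y ∈ A, 0 < ρ y → ∃ z ∈ Z, dist y z < ρ y ∨ y = z := by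
  obtain ⟨Z, hZ⟩ := zorn_subset
    {Z : Set E | Z ⊆ A ∧ Z.Pairwise fun z z' => min (ρ z) (ρ z') ≤ dist z z'} (by
      intro C hC hchain
      refine ⟨⋃₀ C, ⟨sUnion_subset fun s hs => (hC hs).1, ?_⟩, fun s hs => subset_sUnion_of_mem hs⟩
      exact (pairwise_sUnion hchain.directedOn).2 fun s hs => (hC hs).2)
  refine ⟨Z, hZ.prop.1, hZ.prop.2, fun y hy hρ => ?_⟩
  by_contra hcon
  push Not at hcon
  have hyZ : y ∉ Z := fun h => (hcon y h).2 rfl
  have hins : insert y Z ∈ {Z : Set E | Z ⊆ A ∧ Z.Pairwise fun z z' =>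
      min (ρ z) (ρ z') ≤ dist z z'} := by
    refine ⟨insert_subset hy hZ.prop.1, ?_⟩
    rw [pairwise_insert]
    refine ⟨hZ.prop.2, fun z hz _ => ⟨?_, ?_⟩⟩
    · exact (min_le_left _ _).trans (hcon z hz).1
    · rw [dist_comm]
      exact (min_le_right _ _).trans (hcon z hz).1
  exact hyZ (hZ.le_of_ge hins (subset_insert y Z) (mem_insert y Z))

theorem net_finite {W Z : Set E} {ρ : E → ℝ}
    (hsep : Z.Pairwise fun z z' => min (ρ z) (ρ z') ≤ dist z z')
    (hρ : ∀ y ∈ W, ∃ c > 0, ∀ᶠ y' in 𝓝 y, c ≤ ρ y')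
    {K : Set E} (hK : IsCompact K) (hKW : K ⊆ W) : (Z ∩ K).Finite := by
  by_contra hinf
  obtain ⟨x, hx, hacc⟩ := Set.Infinite.exists_accPt_of_subset_isCompact hinf hK inter_subset_right
  obtain ⟨c, hc, hev⟩ := hρ x (hKW hx)
  obtain ⟨r, hr, hb⟩ := Metric.eventually_nhds_iff.1 hev
  rw [accPt_iff_frequently] at hacc
  have hε : 0 < min r (c / 2) := lt_min hr (by positivity)
  obtain ⟨z1, ⟨hz1x, hz1⟩, hz1b⟩ := (hacc.and_eventually (ball_mem_nhds x hε)).exists
  have hε2 : 0 < min (min r (c / 2)) (dist z1 x) := lt_min hε (dist_pos.2 hz1x)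
  obtain ⟨z2, ⟨hz2x, hz2⟩, hz2b⟩ := (hacc.and_eventually (ball_mem_nhds x hε2)).exists
  have hne : z1 ≠ z2 := by
    intro h
    rw [h] at hz2b
    exact absurd (hz2b.trans_le (min_le_right _ _)) (lt_irrefl _)
  have h1 := hsep hz1.1 hz2.1 hne
  have h2 : c ≤ ρ z1 := hb (hz1b.trans_le (min_le_left _ _))
  have h3 : c ≤ ρ z2 := hb ((hz2b.trans_le (min_le_left _ _)).trans_le (min_le_left _ _))
  have h4 : dist z1 z2 < c := by
    calc dist z1 z2 ≤ dist z1 x + dist x z2 := dist_triangle _ _ _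
      _ < c / 2 + c / 2 := by
        rw [dist_comm x z2]
        exact add_lt_add (hz1b.trans_le (min_le_right _ _))
          ((hz2b.trans_le (min_le_left _ _)).trans_le (min_le_right _ _))
      _ = c := by ring
  have h5 : c ≤ min (ρ z1) (ρ z2) := le_min h2 h3
  linarith

end net

section lower

variable {E : Type*} [NormedAddCommGroup E] [ProperSpace E]

/-- A positive `1`-Lipschitz function below the prescribed positive function, in the image. -/
theorem exists_lower {W : Set E} (hWb : Bornology.IsBounded W) {T : E → E}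
    (hT : Continuous T) (hTW : ∀ y ∉ W, T y = y) {a : E → ℝ}
    (ha : ∀ y ∈ W, ∃ c > 0, ∀ᶠ y' in 𝓝 y, c ≤ a y') (ha0 : ∀ y ∈ W, 0 < a y) :
    ∃ m : E → ℝ, (∀ x x', m x ≤ m x' + dist x x') ∧ (∀ x, 0 ≤ m x) ∧ (∀ x ∈ W, 0 < m x) ∧
      ∀ y ∈ W, m (T y) ≤ a y := by
  rcases W.eq_empty_or_nonempty with hW0 | ⟨y₀, hy₀⟩
  · refine ⟨fun _ => 0, ?_, ?_, ?_, ?_⟩
    · intro x x'; simp
    · simp
    · intro x hx; rw [hW0] at hx; exact hx.elim
    · intro x hx; rw [hW0] at hx; exact hx.elim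
  have hbdd : ∀ x, BddBelow ((fun y => a y + dist x (T y)) '' W) := by
    intro x
    refine ⟨0, ?_⟩
    rintro _ ⟨y, hy, rfl⟩
    exact add_nonneg (ha0 y hy).le dist_nonneg
  have hne : ∀ x, ((fun y => a y + dist x (T y)) '' W).Nonempty := fun x => ⟨_, y₀, hy₀, rfl⟩
  refine ⟨fun x => sInf ((fun y => a y + dist x (T y)) '' W), ?_, ?_, ?_, ?_⟩
  · intro x x'
    rw [← sub_le_iff_le_add]
    apply le_csInf (hne x')
    rintro _ ⟨y, hy, rfl⟩
    rw [sub_le_iff_le_add]
    refine (csInf_le (hbdd x) ⟨y, hy, rfl⟩).trans ?_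
    have := dist_triangle x x' (T y)
    simp only
    linarith
  · intro x
    apply le_csInf (hne x)
    rintro _ ⟨y, hy, rfl⟩
    exact add_nonneg (ha0 y hy).le dist_nonneg
  · intro x hx
    by_contra hcon
    push Not at hcon
    have hseq : ∀ k : ℕ, ∃ y ∈ W, a y + dist x (T y) < 1 / ((k : ℝ) + 1) := by
      intro k
      have hlt : sInf ((fun y => a y + dist x (T y)) '' W) < 1 / ((k : ℝ) + 1) :=
        hcon.trans_lt (by positivity)
      obtain ⟨_, ⟨y, hy, rfl⟩, h⟩ := exists_lt_of_csInf_lt (hne x) hlt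
      exact ⟨y, hy, h⟩
    choose y hyW hy using hseq
    obtain ⟨z, _, φ, hφ, hlim⟩ := tendsto_subseq_of_bounded hWb hyW
    have h0 : Tendsto (fun k : ℕ => 1 / ((k : ℝ) + 1)) atTop (𝓝 0) :=
      tendsto_one_div_add_atTop_nhds_zero_nat
    have hT1 : Tendsto (fun k => dist x (T (y (φ k)))) atTop (𝓝 0) := by
      refine squeeze_zero (fun k => dist_nonneg) (fun k => ?_) (h0.comp hφ.tendsto_atTop)
      have h1 := hy (φ k)
      have h2 := ha0 _ (hyW (φ k))
      simp only [Function.comp]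
      linarith
    have hT2 : Tendsto (fun k => dist x (T (y (φ k)))) atTop (𝓝 (dist x (T z))) :=
      (continuous_const.dist hT).continuousAt.tendsto.comp hlim
    have hTz : x = T z := dist_eq_zero.1 (tendsto_nhds_unique hT2 hT1)
    have hzW : z ∈ W := by
      by_contra hz
      rw [hTW z hz] at hTz
      exact hz (hTz ▸ hx)
    obtain ⟨c, hc, hev⟩ := ha z hzW
    have h1 := hlim.eventually hev
    have h2 := (h0.comp hφ.tendsto_atTop).eventually_lt_const hc
    obtain ⟨k, hk1, hk2⟩ := (h1.and h2).exists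
    have h3 := hy (φ k)
    have h4 : (0:ℝ) ≤ dist x (T (y (φ k))) := dist_nonneg
    simp only [Function.comp] at hk1 hk2
    linarith
  · intro y hy
    refine (csInf_le (hbdd _) ⟨y, hy, rfl⟩).trans ?_
    simp

end lower

section generic

/-- **Generic constants.** For a countable set `Z` and countably many nontrivial finite relations
between the constants, small positive perturbations violate all of them. -/
theorem exists_generic {ι : Type*} {Z : Set ι} (hZ : Z.Countable) {a : ι → ℝ}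
    (ha : ∀ z ∈ Z, 0 < a z) (c : ι → ℝ) (lam : Finset ι → ι → ℝ) :
    ∃ η : ι → ℝ, (∀ z ∈ Z, 0 < η z ∧ η z ≤ a z) ∧
      ∀ J : Finset ι, (J : Set ι) ⊆ Z → (∃ z ∈ J, lam J z ≠ 0) →
        ∑ z ∈ J, lam J z * (c z + η z) ≠ 0 := by
  classical
  obtain ⟨f, hf⟩ := Set.countable_iff_exists_injOn.1 hZ
  -- the polynomial of a relation
  set P : Finset ι → Polynomial ℝ := fun J =>
    Polynomial.C (∑ z ∈ J, lam J z * c z) +
      ∑ z ∈ J, Polynomial.C (lam J z * a z) * Polynomial.X ^ (f z + 1) with hP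
  have hPne : ∀ J : Finset ι, (J : Set ι) ⊆ Z → (∃ z ∈ J, lam J z ≠ 0) → P J ≠ 0 := by
    intro J hJ hex hP0
    obtain ⟨z, hz, hne⟩ := hex
    have h1 : (P J).coeff (f z + 1) = lam J z * a z := by
      simp only [hP, Polynomial.coeff_add, Polynomial.finsetSum_coeff, Polynomial.coeff_C,
        Polynomial.coeff_C_mul, Polynomial.coeff_X_pow]
      rw [if_neg (Nat.succ_ne_zero _), zero_add, Finset.sum_eq_single z]
      · simp
      · intro z' hz' hne'
        rw [if_neg, mul_zero]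
        intro h
        exact hne' (hf (hJ hz') (hJ hz) (by omega))
      · intro h; exact absurd hz h
    rw [hP0, Polynomial.coeff_zero] at h1
    have h2 := ha z (hJ hz)
    rcases mul_eq_zero.1 h1.symm with h | h
    · exact hne h
    · linarith
  set bad : Set ℝ := ⋃ J ∈ {J : Finset ι | (J : Set ι) ⊆ Z}, {t | P J ≠ 0 ∧ (P J).IsRoot t}
    with hbad
  have hcount : bad.Countable := by
    apply Set.Countable.biUnion
    · have h1 := Set.countable_ofPred_finite_subset hZ
      refine (h1.preimage_of_injOn (f := fun J : Finset ι => (J : Set ι))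
        (Finset.coe_injective.injOn)).mono ?_
      intro J hJ
      exact ⟨J.finite_toSet, hJ⟩
    · intro J hJ
      by_cases h0 : P J = 0
      · have : {t | P J ≠ 0 ∧ (P J).IsRoot t} = ∅ := by
          ext t; simp [h0]
        rw [this]; exact countable_empty
      · refine ((P J).roots.toFinset.countable_toSet).mono ?_
        rintro t ⟨h1, h2⟩
        simp only [Finset.mem_coe, Multiset.mem_toFinset]
        exact (Polynomial.mem_roots h1).2 h2
  obtain ⟨t, ht, htb⟩ : ∃ t ∈ Ioo (0:ℝ) 1, t ∈ badᶜ := by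
    have := (hcount.dense_compl ℝ).inter_open_nonempty (Ioo (0:ℝ) 1) isOpen_Ioo
      ⟨1 / 2, by norm_num, by norm_num⟩
    obtain ⟨t, h1, h2⟩ := this
    exact ⟨t, h1, h2⟩
  refine ⟨fun z => a z * t ^ (f z + 1), ?_, ?_⟩
  · intro z hz
    have h1 := ha z hz
    have h2 : t ^ (f z + 1) ≤ 1 := pow_le_one₀ ht.1.le ht.2.le
    have h3 : 0 < t ^ (f z + 1) := pow_pos ht.1 _
    exact ⟨by positivity, by nlinarith⟩
  · intro J hJ hex h0
    apply htb
    simp only [hbad, mem_iUnion, mem_ofPred_eq]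
    refine ⟨J, hJ, hPne J hJ hex, ?_⟩
    simp only [hP, Polynomial.IsRoot.def, Polynomial.eval_add, Polynomial.eval_C,
      Polynomial.eval_finsetSum, Polynomial.eval_mul, Polynomial.eval_pow, Polynomial.eval_X]
    rw [← h0, ← Finset.sum_add_distrib]
    apply Finset.sum_congr rfl
    intro z _
    ring

end generic

end P073.H608
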