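import Vale.Agent.P073.H608.Res
import Vale.Agent.P073.H608.Net

/-!
# P073 [COL-PL] (2): potentials with quadratic two sided bounds
-/

open Set Metric Topology Filter

namespace P073.H608

variable {E : Type*} [NormedAddCommGroup E] [InnerProductSpace ℝ E]

open scoped RealInnerProductSpace

/-- `Phi` is convex with gradient `T` and `L |y|² / 2 - Phi` is convex. -/
structure Pot (Φ : E → ℝ) (T : E → E) (L : ℝ) : Prop where
  pos : 0 < L
  lower : ∀ y z, Φ y + ⟪T y, z - y⟫ ≤ Φ z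
  upper : ∀ y z, Φ z ≤ Φ y + ⟪T y, z - y⟫ + L / 2 * ‖z - y‖ ^ 2

namespace Pot

variable {Φ : E → ℝ} {T : E → E} {L : ℝ}

theorem coco (P : Pot Φ T L) (y z : E) :
    Φ y + ⟪T y, z - y⟫ + 1 / (2 * L) * ‖T z - T y‖ ^ 2 ≤ Φ z := by
  have hL := P.pos
  set d := T z - T y with hd
  have h1 := P.lower y (z - L⁻¹ • d)
  have h2 := P.upper z (z - L⁻¹ • d)
  have e1 : z - L⁻¹ • d - y = (z - y) - L⁻¹ • d := by abel
  have e2 : z - L⁻¹ • d - z = - (L⁻¹ • d) := by abel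
  rw [e1, inner_sub_right, inner_smul_right] at h1
  rw [e2, inner_neg_right, inner_smul_right, norm_neg, norm_smul, mul_pow, Real.norm_eq_abs,
    sq_abs] at h2
  have h3 : ⟪T z, d⟫ - ⟪T y, d⟫ = ‖d‖ ^ 2 := by
    rw [← inner_sub_left, ← hd, real_inner_self_eq_norm_sq]
  have h4 : L / 2 * ((L⁻¹) ^ 2 * ‖d‖ ^ 2) = 1 / (2 * L) * ‖d‖ ^ 2 := by
    field_simp
  have h5 : L⁻¹ * ‖d‖ ^ 2 = 2 * (1 / (2 * L) * ‖d‖ ^ 2) := by
    field_simp
  have h6 : L⁻¹ * ⟪T z, d⟫ - L⁻¹ * ⟪T y, d⟫ = L⁻¹ * ‖d‖ ^ 2 := by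
    rw [← mul_sub, h3]
  linarith

theorem lip (P : Pot Φ T L) (y z : E) : ‖T z - T y‖ ≤ L * ‖z - y‖ := by
  have hL := P.pos
  have h1 := P.coco y z
  have h2 := P.coco z y
  have h3 : ‖T y - T z‖ = ‖T z - T y‖ := norm_sub_rev _ _
  have h4 : ⟪T z, y - z⟫ = - ⟪T z, z - y⟫ := by rw [← inner_neg_right, neg_sub]
  have h5 : ⟪T z - T y, z - y⟫ ≤ ‖T z - T y‖ * ‖z - y‖ := real_inner_le_norm _ _
  rw [inner_sub_left] at h5
  rw [h3, h4] at h2
  have h6 : 1 / L * ‖T z - T y‖ ^ 2 ≤ ‖T z - T y‖ * ‖z - y‖ := by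
    have : 1 / L * ‖T z - T y‖ ^ 2 = 1 / (2 * L) * ‖T z - T y‖ ^ 2 +
      1 / (2 * L) * ‖T z - T y‖ ^ 2 := by field_simp; ring
    rw [this]; linarith
  rcases eq_or_lt_of_le (norm_nonneg (T z - T y)) with h0 | h0
  · rw [← h0]; positivity
  · have h7 : ‖T z - T y‖ * ‖T z - T y‖ ≤ ‖T z - T y‖ * (L * ‖z - y‖) := by
      have := mul_le_mul_of_nonneg_left h6 hL.le
      have e : L * (1 / L * ‖T z - T y‖ ^ 2) = ‖T z - T y‖ * ‖T z - T y‖ := by
        field_simp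
      rw [e] at this
      linarith
    exact le_of_mul_le_mul_left h7 h0

theorem continuous (P : Pot Φ T L) : Continuous T := by
  have : LipschitzWith ⟨L, P.pos.le⟩ T := LipschitzWith.of_dist_le_mul fun y y' => by
    rw [dist_eq_norm, dist_eq_norm]; exact P.lip _ _
  exact this.continuous

/-- the affine function of the cell of `z` (unperturbed) -/
noncomputable def ell (Φ : E → ℝ) (T : E → E) (s : ℝ) (z x : E) : ℝ :=
  ⟪s • z - T z, x⟫ - (s * Φ z - ‖T z‖ ^ 2 / 2)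

/-- the value of the envelope at `T y` -/
noncomputable def val (Φ : E → ℝ) (T : E → E) (s : ℝ) (y : E) : ℝ :=
  s * (⟪T y, y⟫ - Φ y) - ‖T y‖ ^ 2 / 2

theorem val_eq (P : Pot Φ T L) (s : ℝ) {y y' : E} (h : T y = T y') :
    val Φ T s y = val Φ T s y' := by
  have h1 := P.lower y y'
  have h2 := P.lower y' y
  rw [h] at h1
  rw [inner_sub_right] at h1 h2
  have h3 : ⟪T y', y⟫ - Φ y = ⟪T y', y'⟫ - Φ y' := by linarith
  simp only [val]
  rw [h, h3]

omit [InnerProductSpace ℝ E] in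
theorem norm_sub_sq_aux [InnerProductSpace ℝ E] (a b : E) :
    ‖a - b‖ ^ 2 = ‖a‖ ^ 2 - 2 * ⟪a, b⟫ + ‖b‖ ^ 2 := norm_sub_sq_real a b

theorem val_sub_ell (Φ : E → ℝ) (T : E → E) (s : ℝ) (y z : E) :
    val Φ T s y - ell Φ T s z (T y) =
      s * (Φ z - Φ y - ⟪T y, z - y⟫) - ‖T y - T z‖ ^ 2 / 2 := by
  simp only [val, ell]
  rw [inner_sub_left, real_inner_smul_left, inner_sub_right, norm_sub_sq_real,
    real_inner_comm (T y) z, real_inner_comm (T y) (T z)]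
  ring

theorem ell_lower (P : Pot Φ T L) {s : ℝ} (hs : 0 ≤ s) (y z : E) :
    (s - L) / (2 * L) * ‖T y - T z‖ ^ 2 ≤ val Φ T s y - ell Φ T s z (T y) := by
  have hL := P.pos
  rw [val_sub_ell]
  have h1 := P.coco y z
  rw [norm_sub_rev] at h1
  have h2 : s * (1 / (2 * L) * ‖T y - T z‖ ^ 2) ≤ s * (Φ z - Φ y - ⟪T y, z - y⟫) :=
    mul_le_mul_of_nonneg_left (by linarith) hs
  have h3 : (s - L) / (2 * L) * ‖T y - T z‖ ^ 2 =
      s * (1 / (2 * L) * ‖T y - T z‖ ^ 2) - ‖T y - T z‖ ^ 2 / 2 := by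
    field_simp
  linarith

theorem ell_upper (P : Pot Φ T L) {s : ℝ} (hs : 0 ≤ s) (y z : E) :
    val Φ T s y - ell Φ T s z (T y) ≤ s * L / 2 * ‖z - y‖ ^ 2 := by
  rw [val_sub_ell]
  have h1 := P.upper y z
  have h2 : s * (Φ z - Φ y - ⟪T y, z - y⟫) ≤ s * (L / 2 * ‖z - y‖ ^ 2) :=
    mul_le_mul_of_nonneg_left (by linarith) hs
  have h3 : 0 ≤ ‖T y - T z‖ ^ 2 := by positivity
  linarith

theorem ell_self (Φ : E → ℝ) (T : E → E) (s : ℝ) (y : E) :
    ell Φ T s y (T y) = val Φ T s y := by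
  have := val_sub_ell Φ T s y y
  simp only [sub_self, inner_zero_right, mul_zero, norm_zero] at this
  linarith

end Pot

/-! ### filters of local maxima -/

variable {ι : Type*}

theorem LocMax.filter {ψ : E → ℝ} {w : ι → E} {c : ι → ℝ} {I J : Finset ι} {x : E}
    (h : LocMax ψ w c I x) (hJ : ∀ i, i ∈ J ↔ i ∈ I ∧ ψ x = ⟪w i, x⟫ - c i) :
    LocMax ψ w c J x := by
  classical
  obtain ⟨i, hiI, hi⟩ := (h.self_of_nhds).2
  have h2 : ∀ᶠ x' in 𝓝 x, ∀ j ∈ I, j ∉ J → ⟪w j, x'⟫ - c j < ⟪w i, x'⟫ - c i := by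
    rw [Finset.eventually_all]
    intro j hj
    by_cases hjJ : j ∈ J
    · exact Eventually.of_forall fun t hn => absurd hjJ hn
    · have hlt : ⟪w j, x⟫ - c j < ⟪w i, x⟫ - c i := by
        have h3 := (h.self_of_nhds).1 j hj
        rw [hi] at h3
        refine lt_of_le_of_ne h3 fun he => hjJ ((hJ j).2 ⟨hj, ?_⟩)
        rw [he, ← hi]
      have hcj : Tendsto (fun x' : E => ⟪w j, x'⟫ - c j) (𝓝 x) (𝓝 (⟪w j, x⟫ - c j)) := by
        have : Continuous fun x' : E => ⟪w j, x'⟫ - c j := by fun_prop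
        exact this.tendsto x
      have hci : Tendsto (fun x' : E => ⟪w i, x'⟫ - c i) (𝓝 x) (𝓝 (⟪w i, x⟫ - c i)) := by
        have : Continuous fun x' : E => ⟪w i, x'⟫ - c i := by fun_prop
        exact this.tendsto x
      filter_upwards [hcj.eventually_lt hci hlt] with t ht _ using ht
  filter_upwards [h, h2] with x' h1 h2
  obtain ⟨hle, j, hj, hjt⟩ := h1
  refine ⟨fun i hi => hle i ((hJ i).1 hi).1, j, ?_, hjt⟩
  by_contra hjJ
  have h3 := h2 j hj hjJ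
  have h4 := hle i hiI
  rw [hjt] at h4
  linarith

/-- **Subgradients are convex combinations of the active slopes.** -/
theorem LocMax.sub_mem_convexHull [FiniteDimensional ℝ E] {ψ : E → ℝ} {w : ι → E} {c : ι → ℝ}
    {J : Finset ι} {x g : E} (h : LocMax ψ w c J x)
    (hJ : ∀ i ∈ J, ψ x = ⟪w i, x⟫ - c i) (hg : IsSub ψ x g) :
    g ∈ convexHull ℝ (w '' (J : Set ι)) := by
  classical
  by_contra hcon
  have hfin : (w '' (J : Set ι)).Finite := J.finite_toSet.image w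
  obtain ⟨f, u, hf1, hf2⟩ := geometric_hahn_banach_closed_point (convex_convexHull ℝ _)
    (hfin.isClosed_convexHull ℝ) hcon
  set v : E := (InnerProductSpace.toDual ℝ E).symm f with hv
  have hfv : ∀ y, f y = ⟪v, y⟫ := fun y => by
    rw [hv, InnerProductSpace.toDual_symm_apply]
  have hc0 : Tendsto (fun t : ℝ => x + t • v) (𝓝[>] 0) (𝓝 x) := by
    have : Continuous fun t : ℝ => x + t • v := by fun_prop
    have h0 := this.tendsto 0
    simp only [zero_smul, add_zero] at h0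
    exact h0.mono_left nhdsWithin_le_nhds
  obtain ⟨t, ⟨⟨_, j, hj, hjt⟩, ht⟩⟩ :=
    ((hc0.eventually h).and (self_mem_nhdsWithin : Ioi (0:ℝ) ∈ 𝓝[>] 0)).exists
  have ht0 : 0 < t := ht
  have h1 := hg (x + t • v)
  rw [add_sub_cancel_left, inner_smul_right, hjt, hJ j hj, inner_add_right,
    inner_smul_right] at h1
  have h2 := hf1 (w j) (subset_convexHull ℝ _ ⟨j, hj, rfl⟩)
  rw [hfv] at h2 hf2
  rw [real_inner_comm] at h2 hf2
  have h3 : t * ⟪g, v⟫ ≤ t * ⟪w j, v⟫ := by linarith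
  have h4 := le_of_mul_le_mul_left h3 ht0
  linarith

/-- convex combinations of active slopes are subgradients -/
theorem isSub_of_mem_convexHull {ψ : E → ℝ} {w : ι → E} {c : ι → ℝ} {J : Set ι} {x g : E}
    (hle : ∀ i ∈ J, ∀ z, ⟪w i, z⟫ - c i ≤ ψ z) (hJ : ∀ i ∈ J, ψ x = ⟪w i, x⟫ - c i)
    (hg : g ∈ convexHull ℝ (w '' J)) : IsSub ψ x g := by
  have hconv : Convex ℝ {g : E | IsSub ψ x g} := by
    intro a ha b hb s t hs ht hst z
    have h1 := ha z
    have h2 := hb z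
    rw [inner_add_left, real_inner_smul_left, real_inner_smul_left]
    have h3 := add_le_add (mul_le_mul_of_nonneg_left h1 hs) (mul_le_mul_of_nonneg_left h2 ht)
    have h4 : s * (ψ x + ⟪a, z - x⟫) + t * (ψ x + ⟪b, z - x⟫) =
        (s + t) * ψ x + (s * ⟪a, z - x⟫ + t * ⟪b, z - x⟫) := by ring
    have h5 : s * ψ z + t * ψ z = (s + t) * ψ z := by ring
    rw [h4, h5, hst, one_mul, one_mul] at h3
    exact h3
  refine convexHull_min ?_ hconv hg
  rintro _ ⟨i, hi, rfl⟩ z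
  have := hle i hi z
  rw [hJ i hi, inner_sub_right]
  linarith

end P073.H608
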