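import Vale.Agent.P073.H608.Sel

/-!
# P073 [COL-PROX] (2): resolvents of convex functions, conical when the function is locally a
finite maximum of affine functions
-/

open Set Metric Topology Filter

namespace P073.H608

variable {E : Type*} [NormedAddCommGroup E] [InnerProductSpace ℝ E]

open scoped RealInnerProductSpace

/-- `g` is a subgradient of `ψ` at `x`. -/
def IsSub (ψ : E → ℝ) (x g : E) : Prop := ∀ z, ψ x + ⟪g, z - x⟫ ≤ ψ z

theorem IsSub.mono {ψ : E → ℝ} {x x' g g' : E} (h : IsSub ψ x g) (h' : IsSub ψ x' g') :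
    0 ≤ ⟪g - g', x - x'⟫ := by
  have h1 := h x'
  have h2 := h' x
  have h3 : ⟪g, x' - x⟫ = - ⟪g, x - x'⟫ := by rw [← inner_neg_right, neg_sub]
  rw [inner_sub_left]
  linarith

/-- a solution of `b - a u ∈ ∂ψ (u)` -/
theorem exists_res [FiniteDimensional ℝ E] {ψ : E → ℝ} (hc : ConvexOn ℝ univ ψ)
    (hcont : Continuous ψ) {x₀ g₀ : E} (h₀ : IsSub ψ x₀ g₀) {a : ℝ} (ha : 0 < a) (b : E) :
    ∃ u, IsSub ψ u (b - a • u) := by
  set f : E → ℝ := fun x => a / 2 * ‖x‖ ^ 2 - ⟪b, x⟫ + ψ x with hf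
  have hfc : Continuous f := by
    have := hcont
    fun_prop
  -- coercivity
  have hcoer : ∀ᶠ x in cocompact E, f x₀ ≤ f x := by
    have hev : ∀ᶠ R : ℝ in atTop,
        f x₀ ≤ a / 2 * R ^ 2 - ‖b‖ * R + (ψ x₀ - ‖g₀‖ * (R + ‖x₀‖)) := by
      have : Tendsto (fun R : ℝ => a / 2 * R ^ 2 - ‖b‖ * R + (ψ x₀ - ‖g₀‖ * (R + ‖x₀‖)))
          atTop atTop := by
        have h1 : Tendsto (fun R : ℝ => R * (a / 2 * R - (‖b‖ + ‖g₀‖))
            + (ψ x₀ - ‖g₀‖ * ‖x₀‖)) atTop atTop := by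
          apply tendsto_atTop_add_const_right
          apply tendsto_id.atTop_mul_atTop₀
          apply tendsto_atTop_add_const_right
          exact tendsto_id.const_mul_atTop (by positivity)
        refine h1.congr fun R => ?_
        ring
      exact this.eventually_ge_atTop _
    filter_upwards [tendsto_norm_cocompact_atTop.eventually hev] with x hx
    refine hx.trans ?_
    have h1 := h₀ x
    have h2 : -(‖g₀‖ * (‖x‖ + ‖x₀‖)) ≤ ⟪g₀, x - x₀⟫ := by
      have h3 := abs_real_inner_le_norm g₀ (x - x₀)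
      have h4 : ‖x - x₀‖ ≤ ‖x‖ + ‖x₀‖ := norm_sub_le _ _
      have h5 : ‖g₀‖ * ‖x - x₀‖ ≤ ‖g₀‖ * (‖x‖ + ‖x₀‖) := by gcongr
      have h6 := neg_abs_le ⟪g₀, x - x₀⟫
      linarith
    have h7 : ⟪b, x⟫ ≤ ‖b‖ * ‖x‖ := real_inner_le_norm b x
    simp only [hf]
    linarith
  obtain ⟨u, hu⟩ := hfc.exists_forall_le' x₀ hcoer
  refine ⟨u, fun z => ?_⟩
  -- first order condition along the segment
  by_contra hcon
  push Not at hcon
  set d : ℝ := ψ u + ⟪b - a • u, z - u⟫ - ψ z with hd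
  have hdpos : 0 < d := by simp only [hd]; linarith
  have hstep : ∀ t ∈ Ioc (0:ℝ) 1, d ≤ a / 2 * ‖z - u‖ ^ 2 * t := by
    intro t ht
    have h1 := hu (u + t • (z - u))
    have h2 : ψ (u + t • (z - u)) ≤ (1 - t) * ψ u + t * ψ z := by
      have := hc.2 (mem_univ u) (mem_univ z) (by linarith [ht.2] : (0:ℝ) ≤ 1 - t) ht.1.le
        (by ring)
      have he : u + t • (z - u) = (1 - t) • u + t • z := by
        rw [smul_sub, sub_smul, one_smul]; abel
      rw [he]; simpa using this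
    simp only [hf] at h1
    have h3 : ‖u + t • (z - u)‖ ^ 2 = ‖u‖ ^ 2 + 2 * t * ⟪u, z - u⟫ + t ^ 2 * ‖z - u‖ ^ 2 := by
      rw [norm_add_sq_real, inner_smul_right, norm_smul, Real.norm_of_nonneg ht.1.le]
      ring
    have h4 : ⟪b, u + t • (z - u)⟫ = ⟪b, u⟫ + t * ⟪b, z - u⟫ := by
      rw [inner_add_right, inner_smul_right]
    rw [h3, h4] at h1
    have h5 : ⟪b - a • u, z - u⟫ = ⟪b, z - u⟫ - a * ⟪u, z - u⟫ := by
      rw [inner_sub_left, real_inner_smul_left]
    have h6 : t * d ≤ t * (a / 2 * ‖z - u‖ ^ 2 * t) := by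
      simp only [hd, h5]
      nlinarith
    exact le_of_mul_le_mul_left h6 ht.1
  have hN : 0 ≤ a / 2 * ‖z - u‖ ^ 2 := by positivity
  set N := a / 2 * ‖z - u‖ ^ 2 with hNdef
  have ht : min 1 (d / (2 * (N + 1))) ∈ Ioc (0:ℝ) 1 :=
    ⟨lt_min one_pos (by positivity), min_le_left _ _⟩
  have h8 := hstep _ ht
  have h9 : N * min 1 (d / (2 * (N + 1))) ≤ N * (d / (2 * (N + 1))) := by
    gcongr; exact min_le_right _ _
  have h10 : N * (d / (2 * (N + 1))) ≤ d / 2 := by
    rw [mul_div_assoc', div_le_div_iff₀ (by positivity) two_pos]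
    nlinarith
  linarith

/-- the resolvent relation is one-sided: firm nonexpansiveness -/
theorem res_firm {ψ : E → ℝ} {s : ℝ} {x x' y y' : E} (h : IsSub ψ x (s • y - x))
    (h' : IsSub ψ x' (s • y' - x')) : ‖x - x'‖ ^ 2 ≤ s * ⟪y - y', x - x'⟫ := by
  have h1 := h.mono h'
  have h2 : s • y - x - (s • y' - x') = s • (y - y') - (x - x') := by
    rw [smul_sub]; abel
  rw [h2, inner_sub_left, real_inner_smul_left, real_inner_self_eq_norm_sq] at h1
  linarith

theorem res_norm_le {ψ : E → ℝ} {s : ℝ} (hs : 0 ≤ s) {x x' y y' : E}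
    (h : IsSub ψ x (s • y - x)) (h' : IsSub ψ x' (s • y' - x')) :
    ‖x - x'‖ ≤ s * ‖y - y'‖ := by
  have h1 := res_firm h h'
  have h2 := real_inner_le_norm (y - y') (x - x')
  have h3 : ‖x - x'‖ ^ 2 ≤ s * (‖y - y'‖ * ‖x - x'‖) := h1.trans (by gcongr)
  rcases eq_or_lt_of_le (norm_nonneg (x - x')) with h0 | h0
  · rw [← h0]; positivity
  · have : ‖x - x'‖ * ‖x - x'‖ ≤ (s * ‖y - y'‖) * ‖x - x'‖ := by nlinarith
    exact le_of_mul_le_mul_right this h0

/-! ### active sets -/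

variable {ι : Type*}

/-- near `x₀`, `ψ` is the maximum of the finitely many affine functions `⟪w i, x⟫ - c i`,
`i ∈ I` -/
def LocMax (ψ : E → ℝ) (w : ι → E) (c : ι → ℝ) (I : Finset ι) (x₀ : E) : Prop :=
  ∀ᶠ x in 𝓝 x₀, (∀ i ∈ I, ⟪w i, x⟫ - c i ≤ ψ x) ∧ ∃ i ∈ I, ψ x = ⟪w i, x⟫ - c i

/-- the span of the differences of slopes -/
def dspan (w : ι → E) (J : Finset ι) : Submodule ℝ E :=
  Submodule.span ℝ {v | ∃ i ∈ J, ∃ j ∈ J, v = w i - w j}

theorem LocMax.sub_mem [FiniteDimensional ℝ E] {ψ : E → ℝ} {w : ι → E} {c : ι → ℝ}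
    {I J : Finset ι} {x g : E}
    (h : LocMax ψ w c I x) (hJ : ∀ i, i ∈ J ↔ i ∈ I ∧ ψ x = ⟪w i, x⟫ - c i)
    (hg : IsSub ψ x g) {i : ι} (hi : i ∈ J) : g - w i ∈ dspan w J := by
  classical
  rw [← Submodule.orthogonal_orthogonal (dspan w J), Submodule.mem_orthogonal]
  intro u hu
  have hperp : ∀ j ∈ J, ⟪w j, u⟫ = ⟪w i, u⟫ := by
    intro j hj
    have h1 : w j - w i ∈ dspan w J := Submodule.subset_span ⟨j, hj, i, hi, rfl⟩
    have h2 := (Submodule.mem_orthogonal _ _).1 hu _ h1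
    rw [inner_sub_left, sub_eq_zero] at h2
    exact h2
  have hix := ((hJ i).1 hi).2
  -- along the line in the direction `u` the function is affine near `x`
  have hline : ∀ᶠ t : ℝ in 𝓝 0, ψ (x + t • u) = ψ x + t * ⟪w i, u⟫ := by
    have hc0 : Tendsto (fun t : ℝ => x + t • u) (𝓝 0) (𝓝 x) := by
      have : Continuous fun t : ℝ => x + t • u := by fun_prop
      simpa using this.tendsto 0
    have h1 := hc0.eventually h
    have h2 : ∀ᶠ t : ℝ in 𝓝 0, ∀ j ∈ I, j ∉ J →
        ⟪w j, x + t • u⟫ - c j < ⟪w i, x + t • u⟫ - c i := by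
      rw [Finset.eventually_all]
      intro j hj
      by_cases hjJ : j ∈ J
      · exact Eventually.of_forall fun t hn => absurd hjJ hn
      · have hlt : ⟪w j, x⟫ - c j < ⟪w i, x⟫ - c i := by
          have h3 := (h.self_of_nhds).1 j hj
          rw [hix] at h3
          refine lt_of_le_of_ne h3 fun he => hjJ ((hJ j).2 ⟨hj, ?_⟩)
          rw [he, ← hix]
        have hcj : Tendsto (fun t : ℝ => ⟪w j, x + t • u⟫ - c j) (𝓝 0)
            (𝓝 (⟪w j, x⟫ - c j)) := by
          have : Continuous fun t : ℝ => ⟪w j, x + t • u⟫ - c j := by fun_prop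
          simpa using this.tendsto 0
        have hci : Tendsto (fun t : ℝ => ⟪w i, x + t • u⟫ - c i) (𝓝 0)
            (𝓝 (⟪w i, x⟫ - c i)) := by
          have : Continuous fun t : ℝ => ⟪w i, x + t • u⟫ - c i := by fun_prop
          simpa using this.tendsto 0
        filter_upwards [hcj.eventually_lt hci hlt] with t ht _ using ht
    filter_upwards [h1, h2] with t h1 h2
    obtain ⟨hle, j, hj, hjt⟩ := h1
    have hjJ : j ∈ J := by
      by_contra hjJ
      have h3 := h2 j hj hjJ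
      have h4 := hle i ((hJ i).1 hi).1
      rw [hjt] at h4
      linarith
    have h5 := ((hJ j).1 hjJ).2
    rw [hjt, inner_add_right, inner_smul_right, hperp j hjJ, h5]
    ring
  have hneg : ∀ᶠ t : ℝ in 𝓝 0, t * ⟪g, u⟫ ≤ t * ⟪w i, u⟫ := by
    filter_upwards [hline] with t ht
    have := hg (x + t • u)
    rw [add_sub_cancel_left, inner_smul_right, ht] at this
    linarith
  have heq : ⟪g, u⟫ = ⟪w i, u⟫ := by
    obtain ⟨ε, hε, hb⟩ := Metric.eventually_nhds_iff.1 hneg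
    have h1 := @hb (ε / 2) (by rw [Real.dist_eq, sub_zero, abs_of_pos (by positivity)]; linarith)
    have h2 := @hb (-(ε / 2)) (by
      rw [Real.dist_eq, sub_zero, abs_neg, abs_of_pos (by positivity)]; linarith)
    apply le_antisymm <;> nlinarith
  rw [inner_sub_right, real_inner_comm, heq, real_inner_comm, sub_self]

theorem active_sub_mem {w : ι → E} {c : ι → ℝ} {J : Finset ι} {x x' : E}
    {a a' : ℝ} (hx : ∀ i ∈ J, a = ⟪w i, x⟫ - c i) (hx' : ∀ i ∈ J, a' = ⟪w i, x'⟫ - c i) :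
    x - x' ∈ (dspan w J)ᗮ := by
  rw [Submodule.mem_orthogonal]
  intro v hv
  induction hv using Submodule.span_induction with
  | mem v hv =>
    obtain ⟨i, hi, j, hj, rfl⟩ := hv
    rw [inner_sub_left, inner_sub_right, inner_sub_right]
    have h1 := hx i hi
    have h2 := hx j hj
    have h3 := hx' i hi
    have h4 := hx' j hj
    linarith
  | zero => simp
  | add a b _ _ ha hb => rw [inner_add_left, ha, hb, add_zero]
  | smul r a _ ha => rw [real_inner_smul_left, ha, mul_zero]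

theorem eq_of_active [FiniteDimensional ℝ E] {K : Submodule ℝ E} {s : ℝ} {x x' y y' : E}
    (h1 : x - x' ∈ Kᗮ) (h2 : (s • y - x) - (s • y' - x') ∈ K) :
    x = x' + s • Kᗮ.starProjection (y - y') := by
  have h3 : Kᗮ.starProjection ((s • y - x) - (s • y' - x')) = 0 := by
    rw [Submodule.starProjection_orthogonal_val, sub_eq_zero]
    exact (Submodule.starProjection_eq_self_iff.2 h2).symm
  have h4 : (s • y - x) - (s • y' - x') = s • (y - y') - (x - x') := by
    rw [smul_sub]; abel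
  rw [h4, map_sub, map_smul, Submodule.starProjection_eq_self_iff.2 h1, sub_eq_zero] at h3
  rw [h3]; abel

end P073.H608
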