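import Vale.Agent.P073.H608.Prox
import Vale.Agent.P073.ConHomeo

/-!
# P073 [COL-PROX] (3): the resolvent map, its conicality and the conical homeomorphisms
(1 - κ) T + κ id
-/

open Set Metric Topology Filter

namespace P073.H608

variable {E : Type*} [NormedAddCommGroup E] [InnerProductSpace ℝ E]

open scoped RealInnerProductSpace

theorem exists_resolvent [FiniteDimensional ℝ E] {ψ : E → ℝ} (hc : ConvexOn ℝ univ ψ)
    (hcont : Continuous ψ) {x₀ g₀ : E} (h₀ : IsSub ψ x₀ g₀) (s : ℝ) :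
    ∃ T : E → E, ∀ y, IsSub ψ (T y) (s • y - T y) := by
  have : ∀ y, ∃ u, IsSub ψ u (s • y - u) := fun y => by
    simpa using exists_res hc hcont h₀ one_pos (s • y)
  choose T hT using this
  exact ⟨T, hT⟩

variable {ψ : E → ℝ} {s : ℝ} {T : E → E}

theorem res_eq (hs : 0 ≤ s) (hT : ∀ y, IsSub ψ (T y) (s • y - T y)) {x y : E}
    (h : IsSub ψ x (s • y - x)) : T y = x := by
  have := res_norm_le hs (hT y) h
  rw [sub_self, norm_zero, mul_zero] at this
  exact sub_eq_zero.1 (norm_eq_zero.1 (le_antisymm this (norm_nonneg _)))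

theorem res_lipschitz (hs : 0 ≤ s) (hT : ∀ y, IsSub ψ (T y) (s • y - T y)) (y y' : E) :
    ‖T y - T y'‖ ≤ s * ‖y - y'‖ := res_norm_le hs (hT y) (hT y')

theorem res_continuous (hs : 0 ≤ s) (hT : ∀ y, IsSub ψ (T y) (s • y - T y)) :
    Continuous T := by
  have : LipschitzWith ⟨s, hs⟩ T := LipschitzWith.of_dist_le_mul fun y y' => by
    rw [dist_eq_norm, dist_eq_norm]; exact res_lipschitz hs hT y y'
  exact this.continuous

theorem res_mono (hs : 0 < s) (hT : ∀ y, IsSub ψ (T y) (s • y - T y)) (y y' : E) :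
    0 ≤ ⟪y - y', T y - T y'⟫ := by
  have h1 := res_firm (hT y) (hT y')
  have h2 : 0 ≤ s * ⟪y - y', T y - T y'⟫ := (sq_nonneg _).trans h1
  exact nonneg_of_mul_nonneg_right h2 hs

/-- **The resolvent is conical** wherever `ψ` is locally a finite maximum of affine functions. -/
theorem res_conicalAt [FiniteDimensional ℝ E] {ι : Type*} {w : ι → E} {c : ι → ℝ}
    {I : Finset ι} (hs : 0 ≤ s) (hT : ∀ y, IsSub ψ (T y) (s • y - T y)) {y₀ : E}
    (hloc : LocMax ψ w c I (T y₀)) : ConicalWithinAt T univ y₀ := by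
  classical
  have hTc := res_continuous hs hT
  set P : Finset ι → E → Prop := fun J y => LocMax ψ w c I (T y) ∧
    (∀ i, i ∈ J ↔ i ∈ I ∧ ψ (T y) = ⟪w i, T y⟫ - c i) with hP
  set rep : Finset ι → E := fun J => if h : ∃ y, P J y then h.choose else 0 with hrep
  have hrepP : ∀ J y, P J y → P J (rep J) := by
    intro J y hy
    have h : ∃ y, P J y := ⟨y, hy⟩
    simp only [hrep, dif_pos h]
    exact h.choose_spec
  set L : Finset ι → E →L[ℝ] E := fun J => s • (dspan w J)ᗮ.starProjection with hL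
  set A : Finset ι → E → E := fun J y => T (rep J) + L J (y - rep J) with hA
  apply conicalWithinAt_of_selection (conicalSetAt_of_mem_nhds univ_mem) (mem_univ _)
    hTc.continuousOn I.powerset A L
  · intro J _ y
    simp only [hA]
    rw [add_assoc, ← map_add]
    congr 2
    abel
  · rw [nhdsWithin_univ]
    have h1 : ∀ᶠ y in 𝓝 y₀, LocMax ψ w c I (T y) :=
      (hTc.tendsto y₀).eventually (eventually_eventually_nhds.2 hloc)
    filter_upwards [h1] with y hy
    set J := I.filter fun i => ψ (T y) = ⟪w i, T y⟫ - c i with hJ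
    have hPJ : P J y := ⟨hy, fun i => by simp [hJ]⟩
    have hPr := hrepP J y hPJ
    refine ⟨J, by simp [hJ], ?_⟩
    obtain ⟨i, hiI, hi⟩ := (hy.self_of_nhds).2
    have hiJ : i ∈ J := by simp [hJ, hiI, hi]
    have hm1 := hy.sub_mem hPJ.2 (hT y) hiJ
    have hm2 := hPr.1.sub_mem hPr.2 (hT (rep J)) hiJ
    have h2 : (s • y - T y) - (s • rep J - T (rep J)) ∈ dspan w J := by
      have := (dspan w J).sub_mem hm1 hm2
      rwa [sub_sub_sub_cancel_right] at this
    have h3 : T y - T (rep J) ∈ (dspan w J)ᗮ := active_sub_mem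
      (fun i hi => ((hPJ.2 i).1 hi).2) (fun i hi => ((hPr.2 i).1 hi).2)
    have := eq_of_active h3 h2
    simp only [hA, hL]
    rw [this]
    rfl

theorem tk_expand (hs : 0 < s) (hT : ∀ y, IsSub ψ (T y) (s • y - T y)) {κ : ℝ}
    (hκ1 : κ ≤ 1) (y y' : E) :
    κ * ‖y - y'‖ ≤ ‖((1 - κ) • T y + κ • y) - ((1 - κ) • T y' + κ • y')‖ := by
  have h1 := res_mono hs hT y y'
  have h2 : ((1 - κ) • T y + κ • y) - ((1 - κ) • T y' + κ • y') =
      (1 - κ) • (T y - T y') + κ • (y - y') := by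
    rw [smul_sub, smul_sub]; abel
  have h3 : κ * ‖y - y'‖ ^ 2 ≤ ⟪y - y', (1 - κ) • (T y - T y') + κ • (y - y')⟫ := by
    rw [inner_add_right, inner_smul_right, inner_smul_right, real_inner_self_eq_norm_sq]
    nlinarith [mul_nonneg (sub_nonneg.2 hκ1) h1]
  have h4 := real_inner_le_norm (y - y') ((1 - κ) • (T y - T y') + κ • (y - y'))
  rw [h2]
  rcases eq_or_lt_of_le (norm_nonneg (y - y')) with h0 | h0
  · rw [← h0, mul_zero]; positivity
  · have h5 : ‖y - y'‖ * (κ * ‖y - y'‖) ≤
        ‖y - y'‖ * ‖(1 - κ) • (T y - T y') + κ • (y - y')‖ := by nlinarith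
    exact le_of_mul_le_mul_left h5 h0

theorem tk_surj [FiniteDimensional ℝ E] (hc : ConvexOn ℝ univ ψ) (hcont : Continuous ψ)
    (hs : 0 < s) (hT : ∀ y, IsSub ψ (T y) (s • y - T y)) {κ : ℝ} (hκ0 : 0 < κ)
    (hκ1 : κ ≤ 1) (x : E) : ∃ y, (1 - κ) • T y + κ • y = x := by
  have ha : 0 < 1 + s * (1 - κ) / κ := by
    have : 0 ≤ s * (1 - κ) / κ := by
      apply div_nonneg (mul_nonneg hs.le (by linarith)) hκ0.le
    linarith
  obtain ⟨u, hu⟩ := exists_res hc hcont (hT 0) ha ((s / κ) • x)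
  refine ⟨κ⁻¹ • (x - (1 - κ) • u), ?_⟩
  have h1 : (s / κ) • x - (1 + s * (1 - κ) / κ) • u =
      s • (κ⁻¹ • (x - (1 - κ) • u)) - u := by
    rw [smul_smul, smul_sub, smul_smul, add_smul, one_smul, div_eq_mul_inv s κ,
      show s * (1 - κ) / κ = s * κ⁻¹ * (1 - κ) by rw [div_eq_mul_inv]; ring]
    abel
  rw [h1] at hu
  rw [res_eq hs.le hT hu, smul_smul, mul_inv_cancel₀ hκ0.ne', one_smul]
  abel

/-- **The conical homeomorphisms (1 - κ) T + κ id of an open set W** outside of which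
`T = id`. -/
theorem exists_conHomeo_res [FiniteDimensional ℝ E] {ι : Type*} {w : ι → E} {c : ι → ℝ}
    {W : Set E} (hW : IsOpen W) (hc : ConvexOn ℝ univ ψ) (hcont : Continuous ψ)
    (hs : 0 < s) (hT : ∀ y, IsSub ψ (T y) (s • y - T y))
    (hloc : ∀ y ∈ W, ∃ I : Finset ι, LocMax ψ w c I (T y)) (hTW : ∀ y ∉ W, T y = y)
    {κ : ℝ} (hκ0 : 0 < κ) (hκ1 : κ ≤ 1) :
    ∃ g : ConHomeo W W, ∀ y ∈ W, g.toFun y = (1 - κ) • T y + κ • y := by
  set f : E → E := fun y => (1 - κ) • T y + κ • y with hf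
  have hfc : Continuous f := by
    have := res_continuous hs.le hT
    fun_prop
  have hexp : ∀ y y', κ * ‖y - y'‖ ≤ ‖f y - f y'‖ := tk_expand hs hT hκ1
  have hinj : Function.Injective f := by
    intro y y' h
    have := hexp y y'
    rw [h, sub_self, norm_zero] at this
    have h2 : ‖y - y'‖ ≤ 0 := by
      by_contra hcon
      push Not at hcon
      nlinarith
    exact sub_eq_zero.1 (norm_eq_zero.1 (le_antisymm h2 (norm_nonneg _)))
  have hsurj : Function.Surjective f := tk_surj hc hcont hs hT hκ0 hκ1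
  have hfid : ∀ y ∉ W, f y = y := fun y hy => by
    simp only [hf]
    rw [hTW y hy, ← add_smul]; simp
  set k : E → E := Function.surjInv hsurj with hk
  have hfk : ∀ x, f (k x) = x := Function.surjInv_eq hsurj
  have hkf : ∀ y, k (f y) = y := fun y => hinj (hfk _)
  have hkc : Continuous k := by
    have : LipschitzWith ⟨κ⁻¹, by positivity⟩ k := LipschitzWith.of_dist_le_mul fun x x' => by
      rw [dist_eq_norm, dist_eq_norm]
      have := hexp (k x) (k x')
      rw [hfk, hfk] at this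
      change ‖k x - k x'‖ ≤ κ⁻¹ * ‖x - x'‖
      rw [inv_mul_eq_div, le_div_iff₀ hκ0]
      linarith
    exact this.continuous
  refine ⟨{ toFun := f, invFun := k, mapsTo := ?_, mapsTo_inv := ?_, left_inv := ?_,
            right_inv := ?_, cont := hfc.continuousOn, cont_inv := hkc.continuousOn,
            conical := ?_ }, fun y _ => rfl⟩
  · intro y hy
    by_contra hn
    have h1 : f y = y := hinj (hfid _ hn)
    exact hn (by rw [h1]; exact hy)
  · intro x hx
    by_contra hn
    have h1 := hfid _ hn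
    rw [hfk] at h1
    exact hn (h1 ▸ hx)
  · intro y _; exact hkf y
  · intro x _; exact hfk x
  · intro y hy
    obtain ⟨I, hI⟩ := hloc y hy
    have h1 : ConicalWithinAt T W y :=
      (res_conicalAt hs.le hT hI).mono_set (P073.IsOpen.conicalSet hW y hy) (subset_univ _)
    exact (h1.const_smul _).add ((conicalOn_id (P073.IsOpen.conicalSet hW) y hy).const_smul _)

end P073.H608
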