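import Vale.Agent.P073.Conical

/-!
# P073 [COL-PROX] (1): continuous selections of finitely many affine maps are conical
-/

open Set Metric Topology Filter

namespace P073.H608

variable {E F : Type*} [NormedAddCommGroup E] [NormedSpace ℝ E]
  [NormedAddCommGroup F] [NormedSpace ℝ F]

/-- A map which is continuous on `X` and near `x` takes, at every point of `X`, one of finitely
many affine values, is conical at `x`. -/
theorem conicalWithinAt_of_selection {κ : Type*} {T : E → F} {X : Set E} {x : E}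
    (hX : ConicalSetAt X x) (hx : x ∈ X) (hT : ContinuousOn T X) (s : Finset κ)
    (A : κ → E → F) (L : κ → E →L[ℝ] F) (hA : ∀ j ∈ s, ∀ y, A j y = A j x + L j (y - x))
    (hsel : ∀ᶠ y in 𝓝[X] x, ∃ j ∈ s, T y = A j y) :
    ConicalWithinAt T X x := by
  classical
  -- only the affine maps with the right value at `x` matter
  have h1 : ∀ j ∈ s, A j x ≠ T x → ∀ᶠ y in 𝓝[X] x, T y ≠ A j y := by
    intro j hj hne
    have hcA : Tendsto (A j) (𝓝[X] x) (𝓝 (A j x)) := by
      have : A j = fun y => A j x + L j (y - x) := funext (hA j hj)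
      rw [this]
      have hc : Continuous fun y => A j x + L j (y - x) := by fun_prop
      have := hc.tendsto x
      simp only [sub_self, map_zero, add_zero] at this ⊢
      exact this.mono_left nhdsWithin_le_nhds
    have hcT : Tendsto T (𝓝[X] x) (𝓝 (T x)) := hT x hx
    have hd : Tendsto (fun y => T y - A j y) (𝓝[X] x) (𝓝 (T x - A j x)) := hcT.sub hcA
    have hne' : T x - A j x ≠ 0 := fun h => hne (sub_eq_zero.1 h).symm
    filter_upwards [hd.eventually_ne hne'] with y hy h
    exact hy (by rw [h, sub_self])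
  have h2 : ∀ᶠ y in 𝓝[X] x, ∀ j ∈ s, A j x ≠ T x → T y ≠ A j y := by
    rw [Finset.eventually_all]
    intro j hj
    by_cases hne : A j x = T x
    · exact Eventually.of_forall fun y h => absurd hne h
    · filter_upwards [h1 j hj hne] with y hy _ using hy
  obtain ⟨r1, hr1, hr1'⟩ := exists_radius_of_nhdsWithin (hsel.and h2)
  obtain ⟨r2, hr2, hr2'⟩ := hX
  refine ⟨min r1 r2, lt_min hr1 hr2, fun v hv hxv t ht => ?_⟩
  have hmem : ∀ t ∈ Icc (0:ℝ) 1, x + t • v ∈ X := fun t ht =>
    hr2' v (hv.trans (min_le_right _ _)) hxv t ht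
  refine ⟨hmem t ht, ?_⟩
  -- the selection along the ray
  have key : ∀ t ∈ Ioc (0:ℝ) 1, ∃ j ∈ s, T (x + t • v) = T x + t • L j v := by
    intro t ht
    have htI : t ∈ Icc (0:ℝ) 1 := ⟨ht.1.le, ht.2⟩
    obtain ⟨⟨j, hj, hTj⟩, h2'⟩ := hr1' (t • v)
      ((norm_smul_le_of_mem_Icc htI hv).trans (min_le_left _ _)) (hmem t htI)
    have hAx : A j x = T x := by
      by_contra hne
      exact h2' j hj hne hTj
    refine ⟨j, hj, ?_⟩
    rw [hTj, hA j hj, hAx, add_sub_cancel_left, map_smul]
  have hfin : (((fun j => L j v) '' (s : Set κ))).Finite := s.finite_toSet.image _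
  have hcont : ContinuousOn (fun t : ℝ => t⁻¹ • (T (x + t • v) - T x)) (Ioc (0:ℝ) 1) := by
    apply ContinuousOn.smul
    · exact continuousOn_inv₀.mono fun t ht => ht.1.ne'
    · apply ContinuousOn.sub _ continuousOn_const
      apply hT.comp
      · fun_prop
      · intro t ht; exact hmem t ⟨ht.1.le, ht.2⟩
  have hmaps : MapsTo (fun t : ℝ => t⁻¹ • (T (x + t • v) - T x)) (Ioc (0:ℝ) 1)
      ((fun j => L j v) '' (s : Set κ)) := by
    intro t ht
    obtain ⟨j, hj, h⟩ := key t ht
    refine ⟨j, hj, ?_⟩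
    simp only
    rw [h, add_sub_cancel_left, smul_smul, inv_mul_cancel₀ ht.1.ne', one_smul]
  rcases eq_or_lt_of_le ht.1 with h0 | h0
  · rw [← h0]; simp
  · have := (isPreconnected_Ioc (a := (0:ℝ)) (b := 1)).constant_of_mapsTo hfin.isDiscrete hcont hmaps
      (⟨h0, ht.2⟩ : t ∈ Ioc (0:ℝ) 1) (⟨one_pos, le_rfl⟩ : (1:ℝ) ∈ Ioc (0:ℝ) 1)
    simp only [inv_one, one_smul] at this
    rw [← this, smul_smul, mul_inv_cancel₀ h0.ne', one_smul]
    abel

end P073.H608
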