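import Vale.Agent.P073.H608.Top
import Vale.Agent.P073.H333.SpecPre
import Vale.Agent.P073.H340.PEd
import Vale.Agent.P073.H716.PostBeam
import Vale.Agent.P073.H193.PlaneSum
import Vale.Agent.P073.H253.LineOK
import Vale.Agent.P073.H407.Mid
import Vale.Agent.P073.H716.SpecRows
import Vale.Agent.P073.H247.RowData

/-!
# P073: the top of the proof for `2 ≤ p < 3`, with the landed pieces inserted
-/

namespace Vale.Agent.P073.H608

open Vale.Agent.P073 Vale.Agent.P073.St Vale.Agent.P073.H235 Vale.Agent.P073.LOC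

theorem postFlat {p : ℝ} (hp : 1 ≤ p) : SpecPostFlat p :=
  H407.specPostFlat_of hp H716.specRows (H247.specRowData p)

theorem postBeam {p : ℝ} (hp : 2 ≤ p) : H253.SpecPostBeam p :=
  H716.specPostBeam_of hp H193.specPlaneSum H253.specLineOK

/-- the open propositions for `2 < p < 3` -/
structure Open23 (p : ℝ) : Prop where
  k2c : H73.K2C p
  preFlat : SpecPreFlat p
  preBeam : H253.SpecPreBeam p

theorem Open23.openLt {p : ℝ} (hp : 2 ≤ p) (H : Open23 p) (hpre : H73.SpecPre p) : OpenLt p where
  pre := hpre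
  k2c := H.k2c
  preFlat := H.preFlat
  postFlat := postFlat (by linarith)
  conBeam := H253.specConBeamT_of (H471.k2as_of_k2c (by linarith) H.k2c) H.preBeam (postBeam hp)

/-- `2 < p < 3` -/
theorem full_two_three {p : ℝ} (hp : 2 < p) (hp3 : p < 3) (H : Open23 p) : Full p :=
  full_lt (by linarith) hp3 (H.openLt hp.le (H333.specPre hp hp3))

/-- `p = 2` -/
theorem full_two (H : Open23 2) (h : H340.SpecPEa 2) : Full 2 :=
  full_lt (by norm_num) (by norm_num)
    (H.openLt le_rfl (H340.specPre_of_a le_rfl (by norm_num) h))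

/-- `2 ≤ p < 3` -/
theorem full_two_lt_three (h : H340.SpecPEa 2) {p : ℝ} (hp : 2 ≤ p) (hp3 : p < 3)
    (H : Open23 p) : Full p := by
  rcases hp.eq_or_lt with rfl | h2
  · exact full_two H h
  · exact full_two_three h2 hp3 H

end Vale.Agent.P073.H608
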