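import Vale.Agent.P073.H608.Top23
import Vale.Agent.P073.Main.Final

/-!
# P073: the top of the proof, all exponents
-/

namespace Vale.Agent.P073.H608

/-- `1 ≤ p < 2` -/
theorem full_one_two {p : ℝ} (hp : 1 ≤ p) (hp2 : p < 2) : Full p :=
  fun Ω Λ f F hΩ hΛ hf hF => P073.Main.final p Ω Λ f F hp hp2 hΩ hΛ hf hF

/-- `1 ≤ p < 3` -/
theorem full_one_three (h : H340.SpecPEa 2) (H : ∀ p : ℝ, 2 ≤ p → p < 3 → Open23 p) {p : ℝ}
    (hp : 1 ≤ p) (hp3 : p < 3) : Full p := by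
  rcases lt_or_ge p 2 with h2 | h2
  · exact full_one_two hp h2
  · exact full_two_lt_three h h2 hp3 (H p h2 hp3)

/-- all exponents -/
theorem full_all (h : H340.SpecPEa 2) (H : ∀ p : ℝ, 2 ≤ p → p < 3 → Open23 p)
    (H' : ∀ p : ℝ, 3 ≤ p → OpenGe p) {p : ℝ} (hp : 1 ≤ p) : Full p := by
  rcases lt_or_ge p 3 with h3 | h3
  · exact full_one_three h H hp h3
  · exact full_ge hp (H' p h3)

end Vale.Agent.P073.H608
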